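import Vale.Agent.P274.Full.Stmts
import Vale.Agent.P274.Surface.Holo
import Mathlib.Topology.UniformSpace.UniformApproximation
import Mathlib.GroupTheory.Perm.Basic

/-!
The group of automorphisms of a taut domain, and compactness of automorphisms.
-/

open Filter Metric Set Function Topology

namespace Vale.Agent.P274.Full.Lie

noncomputable section

variable {E : Type} [NormedAddCommGroup E] [NormedSpace ℂ E]

omit [NormedAddCommGroup E] [NormedSpace ℂ E] in
/-- A permutation fixing the complement of `V` maps `V` into itself. -/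
theorem mapsTo_of_fix {V : Set E} {σ : Equiv.Perm E} (h : ∀ z ∉ V, σ z = z) : MapsTo σ V V := by
  intro z hz
  by_contra hn
  have h1 := σ.injective (h _ hn)
  exact hn (by rwa [h1])

/-- The automorphisms of `V`, extended by the identity. -/
def Aut (V : Set E) : Subgroup (Equiv.Perm E) where
  carrier := {σ | (∀ z ∉ V, σ z = z) ∧ DifferentiableOn ℂ σ V ∧ DifferentiableOn ℂ σ.symm V}
  one_mem' := ⟨fun _ _ => rfl, differentiableOn_id, differentiableOn_id⟩
  mul_mem' := by
    rintro σ τ ⟨hσ, hσd, hσd'⟩ ⟨hτ, hτd, hτd'⟩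
    have hσ' : ∀ z ∉ V, σ.symm z = z := fun z hz => σ.symm_apply_eq.2 (hσ z hz).symm
    refine ⟨fun z hz => ?_, ?_, ?_⟩
    · rw [Equiv.Perm.mul_apply, hτ z hz, hσ z hz]
    · exact hσd.comp hτd (mapsTo_of_fix hτ)
    · exact hτd'.comp hσd' (mapsTo_of_fix hσ')
  inv_mem' := by
    rintro σ ⟨hσ, hσd, hσd'⟩
    exact ⟨fun z hz => σ.symm_apply_eq.2 (hσ z hz).symm, hσd', hσd⟩

variable {V : Set E}

theorem mem_Aut {σ : Equiv.Perm E} :
    σ ∈ Aut V ↔ (∀ z ∉ V, σ z = z) ∧ DifferentiableOn ℂ σ V ∧ DifferentiableOn ℂ σ.symm V :=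
  Iff.rfl

theorem fix {σ : Equiv.Perm E} (hσ : σ ∈ Aut V) {z : E} (hz : z ∉ V) : σ z = z := hσ.1 z hz

theorem diff {σ : Equiv.Perm E} (hσ : σ ∈ Aut V) : DifferentiableOn ℂ σ V := hσ.2.1

theorem mapsTo {σ : Equiv.Perm E} (hσ : σ ∈ Aut V) : MapsTo σ V V := mapsTo_of_fix hσ.1

theorem symm_mem {σ : Equiv.Perm E} (hσ : σ ∈ Aut V) : σ.symm ∈ Aut V := (Aut V).inv_mem hσ

/-- An element of `Aut V` is an automorphism. -/
theorem isAut {σ : Equiv.Perm E} (hσ : σ ∈ Aut V) : IsAut V σ σ.symm :=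
  ⟨diff hσ, diff (symm_mem hσ), mapsTo hσ, mapsTo (symm_mem hσ),
    fun z _ => σ.symm_apply_apply z, fun z _ => σ.apply_symm_apply z⟩

/-- Automorphisms which agree on `V` are equal. -/
theorem ext {σ τ : Equiv.Perm E} (hσ : σ ∈ Aut V) (hτ : τ ∈ Aut V) (h : EqOn σ τ V) : σ = τ := by
  ext z
  by_cases hz : z ∈ V
  · exact h hz
  · rw [fix hσ hz, fix hτ hz]

open scoped Classical in
/-- The permutation given by an automorphism. -/
def ofAut {a b : E → E} (h : IsAut V a b) : Equiv.Perm E where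
  toFun z := if z ∈ V then a z else z
  invFun z := if z ∈ V then b z else z
  left_inv z := by
    by_cases hz : z ∈ V
    · simp only [hz, ↓reduceIte, h.2.2.1 hz, h.2.2.2.2.1 z hz]
    · simp only [hz, ↓reduceIte]
  right_inv z := by
    by_cases hz : z ∈ V
    · simp only [hz, ↓reduceIte, h.2.2.2.1 hz, h.2.2.2.2.2 z hz]
    · simp only [hz, ↓reduceIte]

theorem ofAut_apply {a b : E → E} (h : IsAut V a b) {z : E} (hz : z ∈ V) : ofAut h z = a z :=
  if_pos hz

theorem ofAut_symm_apply {a b : E → E} (h : IsAut V a b) {z : E} (hz : z ∈ V) :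
    (ofAut h).symm z = b z :=
  if_pos hz

theorem ofAut_mem {a b : E → E} (h : IsAut V a b) : ofAut h ∈ Aut V :=
  ⟨fun _ hz => if_neg hz, h.1.congr fun _ hz => ofAut_apply h hz,
    h.2.1.congr fun _ hz => ofAut_symm_apply h hz⟩

variable [FiniteDimensional ℂ E]

section Holo

variable {Y : Type*} [NormedAddCommGroup Y] [NormedSpace ℂ Y]

omit [FiniteDimensional ℂ E] in
/-- The Cauchy estimate for the derivative. -/
theorem norm_fderiv_le {f : E → Y} {z : E} {r M : ℝ} (hr : 0 < r)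
    (hf : DifferentiableOn ℂ f (ball z r)) (hM : ∀ w ∈ ball z r, ‖f w‖ ≤ M) :
    ‖fderiv ℂ f z‖ ≤ 2 * M / r := by
  refine Complex.norm_fderiv_le_div_of_mapsTo_ball hf (fun w hw => ?_) hr
  rw [mem_closedBall, dist_eq_norm]
  linarith [norm_sub_le (f w) (f z), hM w hw, hM z (mem_ball_self hr)]

/-- A bounded holomorphic map is Lipschitz on each compact subset, with a constant proportional to
the bound. -/
theorem exists_lipschitz {U : Set E} (hU : IsOpen U) {S : Set E} (hS : IsCompact S)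
    (hSU : S ⊆ U) : ∃ (S' : Set E) (C : ℝ), IsCompact S' ∧ S' ⊆ U ∧ S ⊆ S' ∧ 0 ≤ C ∧
      ∀ (f : E → Y) (M : ℝ), DifferentiableOn ℂ f U → (∀ w ∈ S', ‖f w‖ ≤ M) →
        (∀ x ∈ S, ‖fderiv ℂ f x‖ ≤ C * M) ∧ ∀ x ∈ S, ∀ y ∈ S, ‖f x - f y‖ ≤ C * M * ‖x - y‖ := by
  have : ProperSpace E := FiniteDimensional.proper ℂ E
  obtain ⟨δ, hδ, hδU⟩ := hS.exists_cthickening_subset_open hU hSU
  refine ⟨cthickening δ S, 4 / δ, hS.cthickening, hδU, self_subset_cthickening S, by positivity,
    fun f M hf hM => ?_⟩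
  have hsub : ∀ x ∈ S, closedBall x δ ⊆ cthickening δ S := fun x hx => by
    exact closedBall_subset_cthickening hx δ
  have hb : ∀ x ∈ S, DifferentiableOn ℂ f (ball x δ) ∧ ∀ w ∈ ball x δ, ‖f w‖ ≤ M := fun x hx =>
    ⟨hf.mono (ball_subset_closedBall.trans ((hsub x hx).trans hδU)),
      fun w hw => hM w (hsub x hx (ball_subset_closedBall hw))⟩
  refine ⟨fun x hx => ?_, fun x hx y hy => ?_⟩
  · have hM0 : 0 ≤ M := (norm_nonneg _).trans (hM x (self_subset_cthickening S hx))
    refine (norm_fderiv_le hδ (hb x hx).1 (hb x hx).2).trans ?_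
    rw [div_mul_eq_mul_div]
    gcongr
    norm_num
  · have hM0 : 0 ≤ M := (norm_nonneg _).trans (hM x (self_subset_cthickening S hx))
    rcases lt_or_ge (‖x - y‖) δ with h | h
    · have hxb : x ∈ ball y δ := by rwa [mem_ball, dist_eq_norm]
      have hmaps : MapsTo f (ball y δ) (closedBall (f y) (2 * M)) := fun w hw => by
        rw [mem_closedBall, dist_eq_norm]
        linarith [norm_sub_le (f w) (f y), (hb y hy).2 w hw, (hb y hy).2 y (mem_ball_self hδ)]
      have := Complex.dist_le_div_mul_dist_of_mapsTo_ball (hb y hy).1 hmaps hxb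
      rw [dist_eq_norm, dist_eq_norm] at this
      refine this.trans ?_
      rw [div_mul_eq_mul_div, div_mul_eq_mul_div, div_mul_eq_mul_div]
      gcongr
      norm_num
    · calc ‖f x - f y‖ ≤ 2 * M := by
            linarith [norm_sub_le (f x) (f y), hM x (self_subset_cthickening S hx),
              hM y (self_subset_cthickening S hy)]
        _ ≤ 4 / δ * M * δ := by
            rw [div_mul_eq_mul_div, div_mul_cancel₀ _ hδ.ne']
            linarith
        _ ≤ 4 / δ * M * ‖x - y‖ := by gcongr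

/-- Derivatives of locally uniformly convergent holomorphic maps converge. -/
theorem tendsto_fderiv {U : Set E} (hU : IsOpen U) {F : ℕ → E → Y} {g : E → Y}
    (hlim : TendstoLocallyUniformlyOn F g atTop U) (hF : ∀ j, DifferentiableOn ℂ (F j) U)
    (hg : DifferentiableOn ℂ g U) {z : E} (hz : z ∈ U) :
    Tendsto (fun j => fderiv ℂ (F j) z) atTop (𝓝 (fderiv ℂ g z)) := by
  obtain ⟨S', C, hS', hS'U, -, hC, hb⟩ :=
    exists_lipschitz (Y := Y) hU isCompact_singleton (singleton_subset_iff.2 hz)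
  have hu := (tendstoLocallyUniformlyOn_iff_tendstoUniformlyOn_of_compact hS').1 (hlim.mono hS'U)
  rw [Metric.tendsto_nhds]
  intro ε hε
  filter_upwards [Metric.tendstoUniformlyOn_iff.1 hu (ε / (C + 1)) (by positivity)] with j hj
  have h1 := (hb (F j - g) (ε / (C + 1)) ((hF j).sub hg) fun w hw => by
    rw [Pi.sub_apply, ← dist_eq_norm, dist_comm]
    exact (hj w hw).le).1 z rfl
  rw [fderiv_sub ((hF j).differentiableAt (hU.mem_nhds hz))
    (hg.differentiableAt (hU.mem_nhds hz))] at h1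
  rw [dist_eq_norm]
  refine h1.trans_lt ?_
  rw [← mul_div_assoc, div_lt_iff₀ (by positivity)]
  nlinarith

end Holo

variable (T : TDom E)

/-- Tautness for self maps of `V`. -/
theorem taut_self {a : E} {S L : Set E} (hS : IsCompact S)
    (hL : IsCompact L) (hLV : L ⊆ T.V) {O : Set E} (hO : IsOpen O) (hOc : IsPreconnected O)
    (hSO : S ⊆ O) (haO : a ∈ O) :
    ∃ L' : Set E, IsCompact L' ∧ L' ⊆ T.V ∧
      ∀ φ : E → E, DifferentiableOn ℂ φ O → MapsTo φ O T.V → φ a ∈ L → MapsTo φ S L' := by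
  let ι : Cn (Module.finrank ℂ E) ≃L[ℂ] E :=
    ContinuousLinearEquiv.ofFinrankEq finrank_euclideanSpace_fin
  obtain ⟨L', h1, h2, h3⟩ := T.taut (Module.finrank ℂ E) (ι ⁻¹' O) (ι ⁻¹' S) (ι.symm a) L
    (hO.preimage ι.continuous)
    (ι.toHomeomorph.isPreconnected_preimage.2 hOc)
    (ι.toHomeomorph.isCompact_preimage.2 hS) (preimage_mono hSO) (by simpa using haO) hL hLV
  refine ⟨L', h1, h2, fun φ hφ hmaps hφa z hz => ?_⟩
  have := h3 (φ ∘ ι) (hφ.comp ι.differentiableOn (mapsTo_preimage _ _))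
    (hmaps.comp (mapsTo_preimage _ _)) (by simpa using hφa) (x := ι.symm z) (by simpa using hz)
  simpa using this

/-- Automorphisms moving a compact set to meet another one map compact sets to compact sets. -/
theorem bounded_of_meet {A L S : Set E} (hA : IsCompact A) (hAV : A ⊆ T.V) (hL : IsCompact L)
    (hLV : L ⊆ T.V) (hS : IsCompact S) (hSV : S ⊆ T.V) :
    ∃ L' : Set E, IsCompact L' ∧ L' ⊆ T.V ∧
      ∀ σ ∈ Aut T.V, ∀ a ∈ A, σ a ∈ L → MapsTo σ S L' := by
  have : ProperSpace E := FiniteDimensional.proper ℂ E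
  refine hA.induction_on
    (p := fun A => ∃ L' : Set E, IsCompact L' ∧ L' ⊆ T.V ∧
      ∀ σ ∈ Aut T.V, ∀ a ∈ A, σ a ∈ L → MapsTo σ S L')
    ⟨∅, isCompact_empty, empty_subset _, by simp⟩ ?_ ?_ ?_
  · rintro A B hAB ⟨L', h1, h2, h3⟩
    exact ⟨L', h1, h2, fun σ hσ a ha => h3 σ hσ a (hAB ha)⟩
  · rintro A B ⟨L₁, h1, h2, h3⟩ ⟨L₂, g1, g2, g3⟩
    refine ⟨L₁ ∪ L₂, h1.union g1, union_subset h2 g2, fun σ hσ a ha hσa => ?_⟩
    rcases ha with ha | ha
    · exact (h3 σ hσ a ha hσa).mono_right subset_union_left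
    · exact (g3 σ hσ a ha hσa).mono_right subset_union_right
  · intro q hq
    obtain ⟨ρ, hρ, hball⟩ := Metric.isOpen_iff.1 T.isOpen_V q (hAV hq)
    obtain ⟨L₁, h1, h2, h3⟩ := taut_self T (isCompact_closedBall q (ρ / 4)) hL hLV
      (isOpen_ball (x := q) (ε := ρ / 2)) (convex_ball q _).isPreconnected
      (closedBall_subset_ball (by linarith)) (mem_ball_self (by positivity))
    obtain ⟨L₂, g1, g2, g3⟩ := taut_self T hS h1 h2 T.isOpen_V
      T.connected_V.isPreconnected hSV (hAV hq)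
    refine ⟨closedBall q (ρ / 4), mem_nhdsWithin_of_mem_nhds
      (closedBall_mem_nhds q (by positivity)), L₂, g1, g2, fun σ hσ a ha hσa => ?_⟩
    rw [mem_closedBall, dist_eq_norm] at ha
    -- translate so that the given point becomes the centre
    have hin : MapsTo (fun w => w + (a - q)) (ball q (ρ / 2)) T.V := fun w hw => by
      refine hball ?_
      rw [mem_ball, dist_eq_norm] at hw ⊢
      rw [show w + (a - q) - q = (w - q) + (a - q) by abel]
      linarith [norm_add_le (w - q) (a - q)]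
    have hq' := h3 (fun w => σ (w + (a - q))) ((diff hσ).comp (by fun_prop) hin)
      ((mapsTo hσ).comp hin) (by simpa using hσa) (x := q - (a - q))
      (by rw [mem_closedBall, dist_eq_norm, show q - (a - q) - q = -(a - q) by abel, norm_neg]
          exact ha)
    exact g3 σ (diff hσ) (mapsTo hσ) (by simpa using hq')

/-- Inverses of automorphisms moving `A` to meet `L` map compact sets to compact sets. -/
theorem bounded_symm_of_meet {A L S : Set E} (hA : IsCompact A) (hAV : A ⊆ T.V) (hL : IsCompact L)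
    (hLV : L ⊆ T.V) (hS : IsCompact S) (hSV : S ⊆ T.V) :
    ∃ L' : Set E, IsCompact L' ∧ L' ⊆ T.V ∧
      ∀ σ ∈ Aut T.V, ∀ a ∈ A, σ a ∈ L → MapsTo σ.symm S L' := by
  obtain ⟨L', h1, h2, h3⟩ := bounded_of_meet T hL hLV hA hAV hS hSV
  exact ⟨L', h1, h2, fun σ hσ a ha hσa => h3 σ.symm (symm_mem hσ) (σ a) hσa (by simpa using ha)⟩

/-- A sequence of maps with images of compact sets in compact sets has a convergent
subsequence, and the limit maps `V` into itself. -/
theorem exists_limit (F : ℕ → E → E) (hd : ∀ j, DifferentiableOn ℂ (F j) T.V)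
    (hb : ∀ S ⊆ T.V, IsCompact S → ∃ L', IsCompact L' ∧ L' ⊆ T.V ∧ ∀ j, MapsTo (F j) S L') :
    ∃ φ : ℕ → ℕ, StrictMono φ ∧ ∃ g : E → E, DifferentiableOn ℂ g T.V ∧ MapsTo g T.V T.V ∧
      TendstoLocallyUniformlyOn (fun j => F (φ j)) g atTop T.V := by
  have : ProperSpace E := FiniteDimensional.proper ℂ E
  obtain ⟨φ, hφ, g, hg, hlim⟩ := P274.montel T.isOpen_V F fun z hz => by
    obtain ⟨r, hr, hrV⟩ := nhds_basis_closedBall.mem_iff.1 (T.isOpen_V.mem_nhds hz)
    obtain ⟨L', hL', -, hL''⟩ := hb _ hrV (isCompact_closedBall z r)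
    obtain ⟨M, hM⟩ := hL'.isBounded.exists_norm_le
    exact ⟨r, hr, M, Eventually.of_forall fun j =>
      ⟨(hd j).mono (ball_subset_closedBall.trans hrV),
        fun y hy => hM _ (hL'' j (ball_subset_closedBall hy))⟩⟩
  refine ⟨φ, hφ, g, hg, fun z hz => ?_, hlim⟩
  obtain ⟨L', hL', hL'V, hL''⟩ := hb {z} (singleton_subset_iff.2 hz) isCompact_singleton
  exact hL'V (hL'.isClosed.mem_of_tendsto (hlim.tendsto_at hz)
    (Eventually.of_forall fun j => hL'' _ rfl))

/-- Automorphisms moving a compact set to meet another one form a sequentially compact set. -/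
theorem exists_subseq {A L : Set E} (hA : IsCompact A) (hAV : A ⊆ T.V) (hL : IsCompact L)
    (hLV : L ⊆ T.V) (σ : ℕ → Equiv.Perm E) (hσ : ∀ j, σ j ∈ Aut T.V)
    (hmeet : ∀ j, ∃ a ∈ A, σ j a ∈ L) :
    ∃ φ : ℕ → ℕ, StrictMono φ ∧ ∃ τ ∈ Aut T.V,
      TendstoLocallyUniformlyOn (fun j => ⇑(σ (φ j))) τ atTop T.V ∧
        TendstoLocallyUniformlyOn (fun j => ⇑(σ (φ j)).symm) τ.symm atTop T.V := by
  choose a ha haL using hmeet
  obtain ⟨φ, hφ, g, hg, hgm, hlim⟩ := exists_limit T (fun j => σ j) (fun j => diff (hσ j))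
    fun S hSV hS => by
      obtain ⟨L', h1, h2, h3⟩ := bounded_of_meet T hA hAV hL hLV hS hSV
      exact ⟨L', h1, h2, fun j => h3 _ (hσ j) _ (ha j) (haL j)⟩
  obtain ⟨ψ, hψ, g', hg', hgm', hlim'⟩ := exists_limit T (fun j => (σ (φ j)).symm)
    (fun j => diff (symm_mem (hσ _))) fun S hSV hS => by
      obtain ⟨L', h1, h2, h3⟩ := bounded_symm_of_meet T hA hAV hL hLV hS hSV
      exact ⟨L', h1, h2, fun j => h3 _ (hσ _) _ (ha _) (haL _)⟩
  have hlim2 : TendstoLocallyUniformlyOn (fun j => ⇑(σ (φ (ψ j)))) g atTop T.V :=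
    fun u hu x hx => by
      obtain ⟨t, ht, h⟩ := hlim u hu x hx
      exact ⟨t, ht, hψ.tendsto_atTop.eventually h⟩
  have hAut : IsAut T.V g g' := by
    refine ⟨hg, hg', hgm, hgm', fun z hz => ?_, fun z hz => ?_⟩
    · refine tendsto_nhds_unique (hlim'.tendsto_comp (hg'.continuousOn _ (hgm hz)) (hgm hz)
        (tendsto_nhdsWithin_iff.2 ⟨hlim2.tendsto_at hz,
          Eventually.of_forall fun j => mapsTo (hσ _) hz⟩)) ?_
      simp
    · refine tendsto_nhds_unique (hlim2.tendsto_comp (hg.continuousOn _ (hgm' hz)) (hgm' hz)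
        (tendsto_nhdsWithin_iff.2 ⟨hlim'.tendsto_at hz,
          Eventually.of_forall fun j => mapsTo (symm_mem (hσ _)) hz⟩)) ?_
      simp
  exact ⟨φ ∘ ψ, hφ.comp hψ, ofAut hAut, ofAut_mem hAut,
    hlim2.congr_right fun z hz => (ofAut_apply hAut hz).symm,
    hlim'.congr_right fun z hz => (ofAut_symm_apply hAut hz).symm⟩

/-- The derivatives of the automorphisms fixing a point are bounded. -/
theorem isotropy_bound {p : E} (hp : p ∈ T.V) :
    ∃ M : ℝ, ∀ a b, IsAut T.V a b → a p = p → ‖fderiv ℂ a p‖ ≤ M := by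
  obtain ⟨S', C, hS', hS'V, -, -, hb⟩ :=
    exists_lipschitz (Y := E) T.isOpen_V isCompact_singleton (singleton_subset_iff.2 hp)
  obtain ⟨L', hL', -, hL''⟩ := taut_self T hS' (isCompact_singleton (x := p))
    (singleton_subset_iff.2 hp) T.isOpen_V T.connected_V.isPreconnected hS'V hp
  obtain ⟨M, hM⟩ := hL'.isBounded.exists_norm_le
  exact ⟨C * M, fun a b hab hap =>
    (hb a M hab.1 fun w hw => hM _ (hL'' a hab.1 hab.2.2.1 (by simp [hap]) hw)).1 p rfl⟩

end

end Vale.Agent.P274.Full.Lie
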