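import Vale.Agent.P274.Full.Lie.Basic
import Mathlib.Algebra.BigOperators.Module

/-!
Cartan's uniqueness theorem, stability and Cartan's inequality for automorphisms.
-/

open Filter Metric Set Function Topology

namespace Vale.Agent.P274.Full.Lie

noncomputable section

variable {E : Type} [NormedAddCommGroup E] [NormedSpace ℂ E]

/-- The mean displacement of the powers of `σ`. -/
def avg (σ : Equiv.Perm E) (n : ℕ) (z : E) : E :=
  (n : ℂ)⁻¹ • ∑ j ∈ Finset.range n, ((σ ^ j) z - z)

theorem avg_apply_self (σ : Equiv.Perm E) {n : ℕ} (hn : n ≠ 0) (z : E) :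
    avg σ n (σ z) - avg σ n z + (σ z - z) = (n : ℂ)⁻¹ • ((σ ^ n) z - z) := by
  have h1 : ∑ j ∈ Finset.range n, ((σ ^ j) (σ z) - σ z) - ∑ j ∈ Finset.range n, ((σ ^ j) z - z) =
      ((σ ^ n) z - z) - (n : ℂ) • (σ z - z) := by
    have h2 : ∀ j, (σ ^ j) (σ z) = (σ ^ (j + 1)) z := fun j => by
      rw [pow_succ, Equiv.Perm.mul_apply]
    simp only [Finset.sum_sub_distrib, h2, Finset.sum_const, Finset.card_range]
    have h3 := Finset.sum_range_sub (fun j => (σ ^ j) z) n
    simp only [Finset.sum_sub_distrib, pow_zero, Equiv.Perm.one_apply] at h3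
    rw [← Nat.cast_smul_eq_nsmul ℂ, ← Nat.cast_smul_eq_nsmul ℂ, ← h3, smul_sub]
    abel
  rw [avg, avg, ← smul_sub, h1, smul_sub, smul_smul, inv_mul_cancel₀ (Nat.cast_ne_zero.2 hn),
    one_smul, sub_add_cancel]

theorem norm_avg_le (σ : Equiv.Perm E) (n : ℕ) {z : E} {M : ℝ} (hM0 : 0 ≤ M)
    (hM : ∀ j < n, ‖(σ ^ j) z - z‖ ≤ M) : ‖avg σ n z‖ ≤ M := by
  rcases Nat.eq_zero_or_pos n with hn | hn
  · simp [avg, hn, hM0]
  rw [avg, norm_smul, norm_inv, Complex.norm_natCast, inv_mul_le_iff₀ (by exact_mod_cast hn)]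
  refine (norm_sum_le_of_le _ fun j hj => hM j (Finset.mem_range.1 hj)).trans ?_
  simp

/-- If the mean displacement is a contraction and the displacement of the `n`th power is bounded,
the displacement of `σ` is small. -/
theorem norm_sub_le_of_avg {σ : Equiv.Perm E} {n : ℕ} (hn : n ≠ 0) {z : E} {M : ℝ}
    (hM : ‖(σ ^ n) z - z‖ ≤ M) (hlip : ‖avg σ n (σ z) - avg σ n z‖ ≤ 1 / 2 * ‖σ z - z‖) :
    ‖σ z - z‖ ≤ 2 * M / n := by
  have hn' : (0 : ℝ) < n := by exact_mod_cast Nat.pos_of_ne_zero hn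
  have h := avg_apply_self σ hn z
  have h1 : ‖σ z - z‖ ≤ ‖(n : ℂ)⁻¹ • ((σ ^ n) z - z)‖ + ‖avg σ n (σ z) - avg σ n z‖ := by
    rw [← h]
    refine (norm_le_norm_sub_add _ (-(avg σ n (σ z) - avg σ n z))).trans ?_
    rw [norm_neg, sub_neg_eq_add, add_comm (avg σ n (σ z) - avg σ n z) (σ z - z)]
  rw [norm_smul, norm_inv, Complex.norm_natCast] at h1
  have h2 : (n : ℝ)⁻¹ * ‖(σ ^ n) z - z‖ ≤ M / n := by
    rw [inv_mul_eq_div]; gcongr
  rw [mul_div_assoc]
  linarith

variable {V : Set E}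

theorem diff_avg {σ : Equiv.Perm E} (hσ : σ ∈ Aut V) (n : ℕ) :
    DifferentiableOn ℂ (avg σ n) V :=
  (DifferentiableOn.fun_sum fun j _ =>
    (diff ((Aut V).pow_mem hσ j)).sub differentiableOn_id).const_smul _

theorem pow_fix {σ : Equiv.Perm E} (hσ : σ ∈ Aut V) {p : E} (hpV : V ∈ 𝓝 p) (hp : σ p = p)
    (hd : fderiv ℂ σ p = ContinuousLinearMap.id ℂ E) (j : ℕ) :
    (σ ^ j) p = p ∧ HasFDerivAt (⇑(σ ^ j)) (ContinuousLinearMap.id ℂ E) p := by
  induction j with
  | zero => exact ⟨rfl, hasFDerivAt_id p⟩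
  | succ j ih =>
    rw [pow_succ', Equiv.Perm.coe_mul]
    refine ⟨by simp [ih.1, hp], ?_⟩
    have h : HasFDerivAt σ (ContinuousLinearMap.id ℂ E) p :=
      hd ▸ ((diff hσ).differentiableAt hpV).hasFDerivAt
    exact (ih.1.symm ▸ h : HasFDerivAt σ _ ((σ ^ j) p)).comp p ih.2

variable [FiniteDimensional ℂ E] (T : TDom E)

/-- Cartan's uniqueness theorem. -/
theorem eq_one_of_fderiv {σ : Equiv.Perm E} (hσ : σ ∈ Aut T.V) {p : E} (hpV : p ∈ T.V)
    (hp : σ p = p) (hd : fderiv ℂ σ p = ContinuousLinearMap.id ℂ E) : σ = 1 := by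
  have : ProperSpace E := FiniteDimensional.proper ℂ E
  have hnhds := T.isOpen_V.mem_nhds hpV
  obtain ⟨r, hr, hrV⟩ := nhds_basis_closedBall.mem_iff.1 hnhds
  obtain ⟨L', hL', -, hL''⟩ := bounded_of_meet T isCompact_singleton
    (singleton_subset_iff.2 hpV) isCompact_singleton (singleton_subset_iff.2 hpV)
    (isCompact_closedBall p r) hrV
  have hpow : ∀ j, MapsTo (⇑(σ ^ j)) (closedBall p r) L' := fun j =>
    hL'' _ ((Aut T.V).pow_mem hσ j) p rfl (pow_fix hσ hnhds hp hd j).1
  obtain ⟨M₀, hM₀⟩ := hL'.isBounded.exists_norm_le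
  set M := |M₀| + (‖p‖ + r) with hMdef
  have hM0 : 0 ≤ M := by positivity
  have hM : ∀ (j : ℕ), ∀ z ∈ closedBall p r, ‖(σ ^ j) z - z‖ ≤ M := fun j z hz => by
    rw [mem_closedBall, dist_eq_norm] at hz
    linarith [norm_sub_le ((σ ^ j) z) z, hM₀ _ (hpow j (mem_closedBall_iff_norm.2 hz)),
      le_abs_self M₀, norm_le_norm_add_norm_sub' z p]
  have hquad : ∀ n, ∀ z ∈ ball p r, ‖avg σ n z‖ ≤ M * (dist z p / r) ^ 2 := by
    intro n z hz
    have hbr : ball p r ⊆ T.V := ball_subset_closedBall.trans hrV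
    have havg : avg σ n p = 0 := by simp [avg, fun j => (pow_fix hσ hnhds hp hd j).1]
    have hD : HasFDerivAt (avg σ n) (0 : E →L[ℂ] E) p := by
      have h : HasFDerivAt (fun z => ∑ j ∈ Finset.range n, ((σ ^ j) z - z))
          (∑ j ∈ Finset.range n, (ContinuousLinearMap.id ℂ E - ContinuousLinearMap.id ℂ E)) p :=
        HasFDerivAt.fun_sum fun j _ => (pow_fix hσ hnhds hp hd j).2.sub (hasFDerivAt_id p)
      simp only [sub_self, Finset.sum_const_zero] at h
      have h' := h.const_smul ((n : ℂ)⁻¹)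
      rw [smul_zero] at h'
      exact h'
    have h := Complex.dist_le_mul_div_pow_of_mapsTo_ball_of_isLittleO (n := 1)
      ((diff_avg hσ n).mono hbr) (R₂ := M) (fun w hw => by
        rw [mem_closedBall, havg, dist_zero_right]
        exact norm_avg_le σ n hM0 fun j _ => hM j w (ball_subset_closedBall hw))
      (by simpa using (hasFDerivAt_iff_isLittleO.1 hD).norm_right) hz
    rwa [havg, dist_zero_right] at h
  set s := min r (r ^ 2 / (8 * (M + 1))) with hs_def
  have hs : 0 < s := lt_min hr (by positivity)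
  have hlip : ∀ n, ∀ x ∈ ball p (s / 2), ∀ y ∈ ball p (s / 2),
      ‖avg σ n x - avg σ n y‖ ≤ 1 / 2 * ‖x - y‖ := by
    intro n x hx y hy
    refine Convex.norm_image_sub_le_of_norm_fderiv_le (𝕜 := ℂ) (fun w hw => ?_) (fun w hw => ?_)
      (convex_ball p (s / 2)) hy hx
    · refine (diff_avg hσ n).differentiableAt (T.isOpen_V.mem_nhds (hrV ?_))
      exact ball_subset_closedBall (ball_subset_ball (by linarith [min_le_left r (r ^ 2 / (8 * (M + 1)))]) hw)
    · have hsub : ball w (s / 2) ⊆ ball p s :=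
        ball_subset_ball' (by linarith [mem_ball.1 hw])
      have hsr : ball p s ⊆ ball p r := ball_subset_ball (min_le_left _ _)
      refine (norm_fderiv_le (M := M * (s / r) ^ 2) (by positivity)
        ((diff_avg hσ n).mono (hsub.trans (hsr.trans (ball_subset_closedBall.trans hrV))))
        fun v hv => (hquad n v (hsr (hsub hv))).trans ?_).trans ?_
      · gcongr
        exact (mem_ball.1 (hsub hv)).le
      · rw [div_pow, div_le_iff₀ (by positivity), ← mul_assoc, ← mul_div_assoc,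
          div_le_iff₀ (by positivity)]
        have hsb : s * (8 * (M + 1)) ≤ r ^ 2 := by
          have := min_le_right r (r ^ 2 / (8 * (M + 1)))
          rwa [le_div_iff₀ (by positivity)] at this
        nlinarith [mul_le_mul_of_nonneg_left hsb hs.le]
  have hev : ⇑σ =ᶠ[𝓝 p] id := by
    have hc : ContinuousAt σ p := ((diff hσ).differentiableAt hnhds).continuousAt
    filter_upwards [ball_mem_nhds p (half_pos hs),
      hc.preimage_mem_nhds (by rw [hp]; exact ball_mem_nhds p (half_pos hs))] with z hz hσz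
    by_contra hne
    have hpos : 0 < ‖σ z - z‖ := norm_pos_iff.2 (sub_ne_zero.2 hne)
    obtain ⟨n, hn⟩ := exists_nat_gt (2 * M / ‖σ z - z‖)
    have hn0 : n ≠ 0 := by
      rintro rfl
      have : 0 ≤ 2 * M / ‖σ z - z‖ := by positivity
      simp only [Nat.cast_zero] at hn
      linarith
    have hzr : z ∈ closedBall p r := by
      refine closedBall_subset_closedBall ?_ (ball_subset_closedBall hz)
      linarith [min_le_left r (r ^ 2 / (8 * (M + 1)))]
    have h1 := norm_sub_le_of_avg hn0 (hM n z hzr) (hlip n _ hσz _ hz)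
    have hn' : (0 : ℝ) < n := by exact_mod_cast Nat.pos_of_ne_zero hn0
    rw [div_lt_iff₀ hpos] at hn
    rw [le_div_iff₀ hn'] at h1
    linarith
  exact ext hσ (Aut T.V).one_mem (Surface.eqOn_of_eventuallyEq T.isOpen_V
    T.connected_V.isPreconnected (diff hσ) differentiableOn_id hpV hev)

/-- An automorphism close to the identity on a ball is close to it on every compact set, together
with its inverse. -/
theorem stability {p : E} {r : ℝ} (hr : 0 < r) (hrV : closedBall p r ⊆ T.V) {S : Set E}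
    (hS : IsCompact S) (hSV : S ⊆ T.V) {η : ℝ} (hη : 0 < η) :
    ∃ δ > 0, ∀ σ ∈ Aut T.V, (∀ z ∈ closedBall p r, ‖σ z - z‖ ≤ δ) →
      ∀ z ∈ S, ‖σ z - z‖ ≤ η ∧ ‖σ.symm z - z‖ ≤ η := by
  have : ProperSpace E := FiniteDimensional.proper ℂ E
  by_contra! hcon
  choose σ hσ hclose z hz hbad using fun j : ℕ =>
    hcon (min r (1 / (j + 1))) (lt_min hr (by positivity))
  have hpV : p ∈ T.V := hrV (mem_closedBall_self hr.le)
  obtain ⟨φ, hφ, τ, hτ, hlim, hlim'⟩ := exists_subseq T isCompact_singleton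
    (singleton_subset_iff.2 hpV) (isCompact_closedBall p r) hrV σ hσ fun j =>
      ⟨p, rfl, mem_closedBall_iff_norm.2
        ((hclose j p (mem_closedBall_self hr.le)).trans (min_le_left _ _))⟩
  have hball : EqOn τ id (ball p r) := fun w hw => by
    refine tendsto_nhds_unique (hlim.tendsto_at (hrV (ball_subset_closedBall hw))) ?_
    rw [id, tendsto_iff_norm_sub_tendsto_zero]
    refine squeeze_zero (fun _ => norm_nonneg _) (fun j => ?_)
      (tendsto_one_div_add_atTop_nhds_zero_nat.comp hφ.tendsto_atTop)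
    exact (hclose _ w (ball_subset_closedBall hw)).trans (min_le_right _ _)
  have hτ1 : τ = 1 := ext hτ (Aut T.V).one_mem (Surface.eqOn_of_eventuallyEq T.isOpen_V
    T.connected_V.isPreconnected (diff hτ) differentiableOn_id hpV
    (eventually_of_mem (ball_mem_nhds p hr) hball))
  subst hτ1
  have hu := Metric.tendstoUniformlyOn_iff.1
    ((tendstoLocallyUniformlyOn_iff_tendstoUniformlyOn_of_compact hS).1 (hlim.mono hSV)) η hη
  have hu' := Metric.tendstoUniformlyOn_iff.1
    ((tendstoLocallyUniformlyOn_iff_tendstoUniformlyOn_of_compact hS).1 (hlim'.mono hSV)) η hη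
  obtain ⟨j, hj, hj'⟩ := (hu.and hu').exists
  have h1 := hj _ (hz (φ j))
  have h2 := hj' _ (hz (φ j))
  rw [dist_comm, dist_eq_norm] at h1 h2
  exact (hbad (φ j) h1.le).not_ge h2.le

/-- Cartan's inequality: the displacement on a compact set is bounded linearly by the displacement
on a ball. -/
theorem inequality {p : E} {r : ℝ} (hr : 0 < r) (hrV : closedBall p r ⊆ T.V) {S : Set E}
    (hS : IsCompact S) (hSV : S ⊆ T.V) :
    ∃ δ > 0, ∃ C ≥ 0, ∀ σ ∈ Aut T.V, ∀ ε ≤ δ, (∀ z ∈ closedBall p r, ‖σ z - z‖ ≤ ε) →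
      ∀ z ∈ S, ‖σ z - z‖ ≤ C * ε := by
  have : ProperSpace E := FiniteDimensional.proper ℂ E
  obtain ⟨d, hd, hdV⟩ := hS.exists_cthickening_subset_open T.isOpen_V hSV
  obtain ⟨S', C₁, hS', hS'V, hsub, hC₁, hb⟩ :=
    exists_lipschitz (Y := E) T.isOpen_V hS.cthickening hdV
  set η := min d (1 / (2 * (C₁ + 1))) with hη_def
  have hη : 0 < η := lt_min hd (by positivity)
  obtain ⟨δ₀, hδ₀, hstab⟩ :=
    stability T (half_pos hr) ((closedBall_subset_closedBall (by linarith)).trans hrV) hS' hS'V hη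
  set c := min (r / 2) δ₀ with hc_def
  have hc : 0 < c := lt_min (half_pos hr) hδ₀
  refine ⟨c, hc, 4 * η / c, by positivity, fun σ hσ ε hε hclose z hz => ?_⟩
  have key : ∀ ε', ε ≤ ε' → 0 < ε' → ε' ≤ c → ‖σ z - z‖ ≤ 4 * η / c * ε' := by
    intro ε' hεε' hε'0 hε'c
    set n := ⌊c / ε'⌋₊ with hn_def
    have hn1 : 1 ≤ n := Nat.le_floor (by rw [le_div_iff₀ hε'0]; simpa using hε'c)
    have hn2 : (n : ℝ) * ε' ≤ c :=
      (le_div_iff₀ hε'0).1 (Nat.floor_le (by positivity))
    have hn3 : c / ε' < n + 1 := Nat.lt_floor_add_one _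
    have hpow : ∀ k ≤ n, ∀ w ∈ closedBall p (r / 2), ‖(σ ^ k) w - w‖ ≤ k * ε' := by
      intro k hk
      induction k with
      | zero => intro w _; simp
      | succ k ih =>
        intro w hw
        have h1 := ih (Nat.le_of_succ_le hk) w hw
        have h2 : (k : ℝ) * ε' ≤ r / 2 :=
          le_trans (mul_le_mul_of_nonneg_right (by exact_mod_cast Nat.le_of_succ_le hk) hε'0.le)
            (hn2.trans (min_le_left _ _))
        have hin : (σ ^ k) w ∈ closedBall p r := by
          rw [mem_closedBall_iff_norm] at hw ⊢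
          linarith [norm_sub_le_norm_sub_add_norm_sub ((σ ^ k) w) w p]
        rw [pow_succ', Equiv.Perm.mul_apply, Nat.cast_succ, add_mul, one_mul]
        linarith [norm_sub_le_norm_sub_add_norm_sub (σ ((σ ^ k) w)) ((σ ^ k) w) w,
          hclose _ hin]
    have hsmall : ∀ k ≤ n, ∀ w ∈ S', ‖(σ ^ k) w - w‖ ≤ η := fun k hk w hw =>
      (hstab _ ((Aut T.V).pow_mem hσ k) (fun v hv => (hpow k hk v hv).trans
        (le_trans (mul_le_mul_of_nonneg_right (by exact_mod_cast hk) hε'0.le)
          (hn2.trans (min_le_right _ _)))) w hw).1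
    have hzS : z ∈ cthickening d S := self_subset_cthickening S hz
    have hσz : σ z ∈ cthickening d S := by
      refine closedBall_subset_cthickening hz d (mem_closedBall_iff_norm.2 ?_)
      have := hsmall 1 hn1 z (hsub hzS)
      rw [pow_one] at this
      exact this.trans (min_le_left _ _)
    have hlip := (hb (avg σ n) η (diff_avg hσ n) fun w hw =>
      norm_avg_le σ n hη.le fun j hj => hsmall j hj.le w hw).2 _ hσz _ hzS
    have hCη : C₁ * η ≤ 1 / 2 := by
      have h3 : η * (2 * (C₁ + 1)) ≤ 1 := by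
        have := min_le_right d (1 / (2 * (C₁ + 1)))
        rwa [le_div_iff₀ (by positivity)] at this
      nlinarith
    have h1 := norm_sub_le_of_avg (by omega) (hsmall n le_rfl z (hsub hzS))
      (hlip.trans (mul_le_mul_of_nonneg_right hCη (norm_nonneg _)))
    refine h1.trans ?_
    rw [div_mul_eq_mul_div, div_le_div_iff₀ (by exact_mod_cast hn1) hc]
    rw [div_lt_iff₀ hε'0] at hn3
    have hn1' : (1 : ℝ) ≤ n := by exact_mod_cast hn1
    nlinarith [mul_nonneg (mul_nonneg hη.le hε'0.le) (sub_nonneg.2 hn1'),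
      mul_le_mul_of_nonneg_left hn3.le hη.le]
  have hε0 : 0 ≤ ε := (norm_nonneg _).trans (hclose p (mem_closedBall_self hr.le))
  rcases hε0.lt_or_eq with h | h
  · exact key ε le_rfl h hε
  · rw [← h, mul_zero]
    refine le_of_forall_gt_imp_ge_of_dense fun a ha => ?_
    refine (key (min c (a / (4 * η / c))) (h ▸ le_min hc.le (by positivity))
      (lt_min hc (by positivity)) (min_le_left _ _)).trans ?_
    refine (mul_le_mul_of_nonneg_left (min_le_right _ _) (by positivity)).trans_eq ?_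
    field_simp

end

end Vale.Agent.P274.Full.Lie
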