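import Vale.Agent.P274.Full.Lie.Est
import Mathlib.Topology.MetricSpace.Contracting
import Mathlib.LinearAlgebra.Basis.VectorSpace

/-!
The exponential map is a chart of the automorphisms near the identity.
-/

open Filter Metric Set Function Topology
open scoped NNReal

namespace Vale.Agent.P274.Full.Lie

noncomputable section

variable {E : Type} [NormedAddCommGroup E] [NormedSpace ℂ E]

/-- The first jet of a map at a point. -/
def jetAt (p : E) (f : E → E) : E × (E →L[ℂ] E) := (f p, fderiv ℂ f p)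

variable [FiniteDimensional ℂ E] (T : TDom E)

omit [FiniteDimensional ℂ E] in
theorem jetAt_sub {p : E} (hp : p ∈ T.V) {f g : E → E} (hf : DifferentiableOn ℂ f T.V)
    (hg : DifferentiableOn ℂ g T.V) :
    jetAt p (fun z => f z - g z) = jetAt p f - jetAt p g := by
  have hn := T.isOpen_V.mem_nhds hp
  simp only [jetAt, Prod.mk_sub_mk,
    fderiv_fun_sub (hf.differentiableAt hn) (hg.differentiableAt hn)]

theorem jetAt_bound {p : E} (hp : p ∈ T.V) :
    ∃ (S : Set E) (C : ℝ), IsCompact S ∧ S ⊆ T.V ∧ p ∈ S ∧ 0 ≤ C ∧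
      ∀ (f : E → E) (ε : ℝ), DifferentiableOn ℂ f T.V → (∀ w ∈ S, ‖f w‖ ≤ ε) →
        ‖jetAt p f‖ ≤ C * ε := by
  obtain ⟨S, C, hS, hSV, hpS, hC, hb⟩ :=
    exists_lipschitz (Y := E) T.isOpen_V isCompact_singleton (singleton_subset_iff.2 hp)
  refine ⟨S, C + 1, hS, hSV, hpS rfl, by positivity, fun f ε hf hε => ?_⟩
  have h1 := hε p (hpS rfl)
  have h2 := (hb f ε hf hε).1 p rfl
  have hε0 := (norm_nonneg _).trans h1
  rw [jetAt, Prod.norm_def, max_le_iff]
  constructor <;> nlinarith [mul_nonneg hC hε0]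

variable [NormedSpace ℝ E] [IsScalarTower ℝ ℂ E]

/-- Second order agreement of the exponential map with the linear map to jets. -/
theorem jet_est {p : E} (hp : p ∈ T.V) :
    ∃ ρ > 0, ∃ C ≥ 0, ∀ x y, ‖x‖ ≤ ρ → ‖y‖ ≤ ρ →
      ‖jetAt p (e T x) - jetAt p (e T y) - jetAt p (field T (x - y))‖ ≤
        C * (‖x‖ + ‖y‖) * ‖x - y‖ := by
  obtain ⟨S, C, hS, hSV, -, hC, hb⟩ := jetAt_bound T hp
  obtain ⟨ρ, hρ, C₁, hC₁, hd⟩ := diff_est T hS hSV
  refine ⟨ρ, hρ, C * C₁, mul_nonneg hC hC₁, fun x y hx hy => ?_⟩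
  have h1 := diff (e_mem T x)
  have h2 := diff (e_mem T y)
  rw [← jetAt_sub T hp h1 h2, ← jetAt_sub T hp (h1.fun_sub h2) (field_complete T _).1]
  refine (hb _ (C₁ * (‖x‖ + ‖y‖) * ‖x - y‖) ((h1.fun_sub h2).fun_sub (field_complete T _).1)
    fun w hw => (hd x y hx hy w hw).2).trans_eq ?_
  ring

/-- Coordinates of jets: a left inverse of the jet map of fields. -/
theorem exists_proj {p : E} (hp : p ∈ T.V) :
    ∃ (π : E × (E →L[ℂ] E) →ₗ[ℝ] Fin (dim T) → ℝ) (P : ℝ), 0 ≤ P ∧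
      (∀ v, ‖π v‖ ≤ P * ‖v‖) ∧ ∀ c, π (jetAt p (field T c)) = c := by
  let jl := (jet T hp).comp (Module.finBasis ℝ (fields T)).equivFun.symm.toLinearMap
  have hinj : Injective jl :=
    (jet_injective T hp).comp (Module.finBasis ℝ (fields T)).equivFun.symm.injective
  obtain ⟨π, hπ⟩ := jl.exists_leftInverse_of_injective (LinearMap.ker_eq_bot.2 hinj)
  have : FiniteDimensional ℝ E := Module.Finite.trans ℂ E
  have : FiniteDimensional ℝ (E →L[ℂ] E) := Module.Finite.trans ℂ (E →L[ℂ] E)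
  refine ⟨π, ‖LinearMap.toContinuousLinearMap π‖, ContinuousLinearMap.opNorm_nonneg _,
    fun v => (LinearMap.toContinuousLinearMap π).le_opNorm v, fun c => ?_⟩
  exact LinearMap.congr_fun hπ c

/-- The exponential map is injective near zero and jets detect coordinates there. -/
theorem coord_est {p : E} (hp : p ∈ T.V) :
    ∃ (π : E × (E →L[ℂ] E) →ₗ[ℝ] Fin (dim T) → ℝ) (P ρ C : ℝ), 0 ≤ P ∧ 0 < ρ ∧ 0 ≤ C ∧
      (∀ v, ‖π v‖ ≤ P * ‖v‖) ∧ (∀ c, π (jetAt p (field T c)) = c) ∧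
      ∀ x y, ‖x‖ ≤ ρ → ‖y‖ ≤ ρ →
        ‖π (jetAt p (e T x)) - π (jetAt p (e T y)) - (x - y)‖ ≤ 1 / 2 * ‖x - y‖ ∧
          ‖x - y‖ ≤ 2 * ‖π (jetAt p (e T x) - jetAt p (e T y))‖ := by
  obtain ⟨π, P, hP, hπ, hπc⟩ := exists_proj T hp
  obtain ⟨ρ, hρ, C, hC, hest⟩ := jet_est T hp
  refine ⟨π, P, min ρ (1 / (4 * (P * C + 1))), C, hP, lt_min hρ (by positivity), hC, hπ, hπc,
    fun x y hx hy => ?_⟩
  have h1 : ‖π (jetAt p (e T x)) - π (jetAt p (e T y)) - (x - y)‖ ≤ 1 / 2 * ‖x - y‖ := by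
    conv_lhs => rw [← hπc (x - y), ← map_sub, ← map_sub]
    refine (hπ _).trans ((mul_le_mul_of_nonneg_left
      (hest x y (hx.trans (min_le_left _ _)) (hy.trans (min_le_left _ _))) hP).trans ?_)
    have hx' := hx.trans (min_le_right _ _)
    have hy' := hy.trans (min_le_right _ _)
    rw [le_div_iff₀ (by positivity)] at hx' hy'
    have : P * C * (‖x‖ + ‖y‖) ≤ 1 / 2 := by nlinarith [norm_nonneg x, norm_nonneg y]
    calc P * (C * (‖x‖ + ‖y‖) * ‖x - y‖) = P * C * (‖x‖ + ‖y‖) * ‖x - y‖ := by ring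
      _ ≤ 1 / 2 * ‖x - y‖ := by gcongr
  refine ⟨h1, ?_⟩
  rw [map_sub]
  linarith [norm_le_norm_add_norm_sub (π (jetAt p (e T x)) - π (jetAt p (e T y))) (x - y)]

theorem e_injOn : ∃ ρ > 0, InjOn (e T) (closedBall 0 ρ) := by
  obtain ⟨p, hp⟩ := T.connected_V.nonempty
  obtain ⟨π, P, ρ, C, -, hρ, -, -, -, h⟩ := coord_est T hp
  refine ⟨ρ, hρ, fun x hx y hy hxy => ?_⟩
  rw [mem_closedBall_zero_iff] at hx hy
  have := (h x y hx hy).2
  rw [hxy, sub_self, map_zero, norm_zero, mul_zero] at this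
  exact sub_eq_zero.1 (norm_le_zero_iff.1 this)

/-- Automorphisms close to the identity are exponentials. -/
theorem surj {p : E} {r : ℝ} (hr : 0 < r) (hrV : closedBall p r ⊆ T.V) {η : ℝ} (hη : 0 < η) :
    ∃ δ > 0, ∀ σ ∈ Aut T.V, (∀ z ∈ closedBall p r, ‖σ z - z‖ ≤ δ) →
      ∃ x, ‖x‖ ≤ η ∧ σ = e T x := by
  have : ProperSpace E := FiniteDimensional.proper ℂ E
  by_contra! hcon
  choose σ hσ hclose hne using fun j : ℕ => hcon (1 / (j + 1)) (by positivity)
  have hp : p ∈ T.V := hrV (mem_closedBall_self hr.le)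
  have hB : IsCompact (closedBall p r) := isCompact_closedBall p r
  obtain ⟨π, P, ρ₀, C₀, hP, hρ₀, -, hπ, hπc, hcoord⟩ := coord_est T hp
  obtain ⟨S, C₁, hS, hSV, -, hC₁, hjb⟩ := jetAt_bound T hp
  set t : ℕ → ℝ := fun j => 1 / ((j : ℝ) + 1) with ht_def
  have ht : Tendsto t atTop (𝓝 0) := tendsto_one_div_add_atTop_nhds_zero_nat
  -- coordinates of the given automorphisms
  obtain ⟨δ₁, hδ₁, C₂, hC₂, hineq⟩ := inequality T hr hrV hS hSV
  set y : ℕ → Fin (dim T) → ℝ := fun j => π (jetAt p (σ j) - jetAt p (e T 0)) with hy_def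
  have hy : ∀ᶠ j in atTop, ‖y j‖ ≤ P * (C₁ * (C₂ * t j)) := by
    filter_upwards [ht.eventually_le_const hδ₁] with j hj
    refine (hπ _).trans (mul_le_mul_of_nonneg_left ?_ hP)
    rw [e_zero T, ← jetAt_sub T hp (diff (hσ j)) (diff (Aut T.V).one_mem)]
    exact hjb _ _ ((diff (hσ j)).fun_sub (diff (Aut T.V).one_mem)) fun w hw =>
      hineq _ (hσ j) _ hj (hclose j) w hw
  have hy0 : Tendsto y atTop (𝓝 0) :=
    squeeze_zero_norm' hy (by simpa using (((ht.const_mul C₂).const_mul C₁).const_mul P))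
  -- solve for exponentials with the same coordinates
  have hsolve : ∀ y : Fin (dim T) → ℝ, ‖y‖ ≤ ρ₀ / 2 →
      ∃ x, ‖x‖ ≤ 2 * ‖y‖ ∧ π (jetAt p (e T x) - jetAt p (e T 0)) = y := by
    intro y hy
    set G : (Fin (dim T) → ℝ) → Fin (dim T) → ℝ :=
      fun x => x - π (jetAt p (e T x) - jetAt p (e T 0)) + y with hG
    have hmem : ∀ x ∈ closedBall (0 : Fin (dim T) → ℝ) (2 * ‖y‖), ‖x‖ ≤ ρ₀ := fun x hx =>
      (mem_closedBall_zero_iff.1 hx).trans (by linarith)
    have hmaps : MapsTo G (closedBall 0 (2 * ‖y‖)) (closedBall 0 (2 * ‖y‖)) := fun x hx => by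
      have h := (hcoord x 0 (hmem x hx) (by simpa using hρ₀.le)).1
      rw [mem_closedBall_zero_iff] at hx ⊢
      rw [sub_zero, ← map_sub, norm_sub_rev] at h
      linarith [norm_add_le (x - π (jetAt p (e T x) - jetAt p (e T 0))) y]
    have hcontr : ContractingWith (1 / 2) (hmaps.restrict G _ _) := by
      refine ⟨by norm_num, LipschitzWith.of_dist_le_mul fun a b => ?_⟩
      rw [Subtype.dist_eq, Subtype.dist_eq, dist_eq_norm, dist_eq_norm]
      have h := (hcoord a b (hmem a a.2) (hmem b b.2)).1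
      simp only [MapsTo.val_restrict_apply, hG, map_sub, NNReal.coe_div, NNReal.coe_one,
        NNReal.coe_ofNat]
      rw [norm_sub_rev] at h
      refine le_of_eq_of_le ?_ h
      congr 1
      abel
    obtain ⟨x, hx, hfix, -, -⟩ := hcontr.exists_fixedPoint' isClosed_closedBall.isComplete hmaps
      (mem_closedBall_self (by positivity)) (edist_ne_top _ _)
    refine ⟨x, mem_closedBall_zero_iff.1 hx, ?_⟩
    have : x - π (jetAt p (e T x) - jetAt p (e T 0)) + y = x := hfix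
    rwa [sub_add_eq_add_sub, sub_eq_iff_eq_add, add_right_inj, eq_comm] at this
  obtain ⟨N, hN⟩ := eventually_atTop.1 ((Metric.tendsto_nhds.1 hy0 (min (ρ₀ / 2) (η / 2))
    (lt_min (half_pos hρ₀) (half_pos hη))))
  have hsmall : ∀ j, ‖y (N + j)‖ ≤ min (ρ₀ / 2) (η / 2) := fun j => by
    simpa using (hN (N + j) (Nat.le_add_right _ _)).le
  choose x hxy hxeq using fun j => hsolve (y (N + j)) ((hsmall j).trans (min_le_left _ _))
  have hx0 : Tendsto x atTop (𝓝 0) := by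
    refine squeeze_zero_norm hxy ?_
    simpa using ((tendsto_add_atTop_iff_nat N).2 hy0).norm.const_mul 2 |>.congr fun j => by
      rw [add_comm]
  have hxη : ∀ j, ‖x j‖ ≤ η := fun j => by
    linarith [hxy j, (hsmall j).trans (min_le_right _ _)]
  -- normalise the remaining factors
  set b : ℕ → Equiv.Perm E := fun j => (e T (x j))⁻¹ * σ (N + j) with hb_def
  have hb : ∀ j, b j ∈ Aut T.V := fun j =>
    (Aut T.V).mul_mem ((Aut T.V).inv_mem (e_mem T _)) (hσ _)
  have hmax : ∀ j, ∃ z ∈ closedBall p r, ∀ w ∈ closedBall p r, ‖b j w - w‖ ≤ ‖b j z - z‖ :=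
    fun j => hB.exists_isMaxOn (nonempty_closedBall.2 hr.le)
      (((diff (hb j)).sub differentiableOn_id).continuousOn.mono hrV).norm
  choose ζ hζ hζmax using hmax
  set ε : ℕ → ℝ := fun j => ‖b j (ζ j) - ζ j‖ with hε_def
  have hεpos : ∀ j, 0 < ε j := fun j => by
    refine lt_of_le_of_ne (norm_nonneg _) fun h => hne (N + j) (x j) (hxη j) ?_
    refine (inv_mul_eq_one.1 (ext (hb j) (Aut T.V).one_mem ?_)).symm
    refine Surface.eqOn_of_eventuallyEq T.isOpen_V T.connected_V.isPreconnected (diff (hb j))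
      differentiableOn_id hp (eventually_of_mem (ball_mem_nhds p hr) fun w hw => ?_)
    exact sub_eq_zero.1 (norm_le_zero_iff.1 (h ▸ hζmax j w (ball_subset_closedBall hw)))
  have hε0 : Tendsto ε atTop (𝓝 0) := by
    rw [Metric.tendsto_nhds]
    intro a ha
    obtain ⟨d, hd, hdV⟩ := hB.exists_cthickening_subset_open T.isOpen_V hrV
    obtain ⟨ρ, hρ, C, hC, he⟩ := diff_est T hB.cthickening hdV
    filter_upwards [Metric.tendsto_nhds.1 ((tendsto_add_atTop_iff_nat N).2 ht) (min d (a / 2))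
        (lt_min hd (half_pos ha)),
      Metric.tendsto_nhds.1 hx0 (min ρ (a / (2 * (C + 1)))) (lt_min hρ (by positivity))]
      with j hj hxj
    rw [dist_zero_right, Real.norm_eq_abs] at hj
    rw [dist_zero_right] at hxj
    rw [dist_zero_right, Real.norm_eq_abs, abs_of_pos (hεpos j)]
    have hσj : ‖σ (N + j) (ζ j) - ζ j‖ < min d (a / 2) := by
      rw [add_comm N j]
      exact (hclose (j + N) _ (hζ j)).trans_lt ((le_abs_self _).trans_lt hj)
    have hin : σ (N + j) (ζ j) ∈ cthickening d (closedBall p r) :=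
      closedBall_subset_cthickening (hζ j) d
        (mem_closedBall_iff_norm.2 (hσj.le.trans (min_le_left _ _)))
    have h1 := (he (-x j) 0 (by simpa using (hxj.trans_le (min_le_left _ _)).le)
      (by simpa using hρ.le) _ hin).1
    simp only [e_zero T, Equiv.Perm.one_apply, sub_zero, norm_neg, e_neg T] at h1
    have hxj' := hxj.trans_le (min_le_right _ _)
    rw [lt_div_iff₀ (by positivity)] at hxj'
    have h2 : C * ‖x j‖ < a / 2 := by nlinarith [norm_nonneg (x j)]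
    simp only [hε_def, hb_def, Equiv.Perm.mul_apply]
    calc _ ≤ ‖(e T (x j))⁻¹ (σ (N + j) (ζ j)) - σ (N + j) (ζ j)‖
          + ‖σ (N + j) (ζ j) - ζ j‖ := norm_sub_le_norm_sub_add_norm_sub _ _ _
      _ < a := by linarith [min_le_right d (a / 2)]
  -- the limit field
  set f : ℕ → E → E := fun j z => (ε j)⁻¹ • (b j z - z) with hf_def
  have hfd : ∀ j, DifferentiableOn ℂ (f j) T.V := fun j =>
    ((diff (hb j)).sub differentiableOn_id).const_smul _
  obtain ⟨φ, hφ, X, hX, hlim⟩ := P274.montel T.isOpen_V f fun z hz => by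
    obtain ⟨s, hs, hsV⟩ := nhds_basis_closedBall.mem_iff.1 (T.isOpen_V.mem_nhds hz)
    obtain ⟨δ, hδ, C, hC, hi⟩ := inequality T hr hrV (isCompact_closedBall z s) hsV
    refine ⟨s, hs, C, (hε0.eventually_le_const hδ).mono fun j hj =>
      ⟨(hfd j).mono (ball_subset_closedBall.trans hsV), fun w hw => ?_⟩⟩
    rw [hf_def, norm_smul, norm_inv, Real.norm_eq_abs, abs_of_pos (hεpos j),
      inv_mul_le_iff₀ (hεpos j), mul_comm]
    exact hi _ (hb j) _ hj (hζmax j) w (ball_subset_closedBall hw)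
  have hXc : IsComplete T.V X := isComplete_of_tendsto T (fun j => b (φ j)) (fun j => hb _)
    (fun j => (ε (φ j))⁻¹) (tendsto_inv_nhdsGT_zero.comp (tendsto_nhdsWithin_iff.2
      ⟨hε0.comp hφ.tendsto_atTop, Eventually.of_forall fun j => hεpos _⟩)) X hlim
  obtain ⟨c, hc⟩ := exists_coord T hXc
  -- the limit has vanishing coordinates
  have hJ : Tendsto (fun j => π (jetAt p (f (φ j)))) atTop (𝓝 c) := by
    have hjet : jetAt p (field T c) = jetAt p X := by
      simp only [jetAt, hc hp, (hc.eventuallyEq_of_mem (T.isOpen_V.mem_nhds hp)).fderiv_eq]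
    rw [← hπc c, hjet]
    have : FiniteDimensional ℝ E := Module.Finite.trans ℂ E
    have : FiniteDimensional ℝ (E →L[ℂ] E) := Module.Finite.trans ℂ (E →L[ℂ] E)
    exact ((LinearMap.toContinuousLinearMap π).continuous.tendsto _).comp
      ((hlim.tendsto_at hp).prodMk_nhds (tendsto_fderiv T.isOpen_V hlim (fun j => hfd _) hX hp))
  obtain ⟨d, hd, hdV⟩ := hS.exists_cthickening_subset_open T.isOpen_V hSV
  obtain ⟨ρd, hρd, Cd, hCd, hdisp⟩ := disp_lip T hS.cthickening hdV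
  have hsmallJ : ∀ᶠ j in atTop, ‖π (jetAt p (f j))‖ ≤ P * (C₁ * (Cd * C₂ * ‖x j‖)) := by
    filter_upwards [hε0.eventually_le_const hδ₁,
      (hε0.const_mul C₂).eventually_le_const (show C₂ * 0 < d by simpa using hd),
      (tendsto_norm_zero.comp hx0).eventually_le_const hρd] with j hj hjd hxj
    have hbw : ∀ w ∈ S, ‖b j w - w‖ ≤ C₂ * ε j := hineq _ (hb j) _ hj (hζmax j)
    have hσe : ∀ w, σ (N + j) w = e T (x j) (b j w) := fun w => by simp [hb_def]
    set D : E → E := fun w => (σ (N + j) w - e T (x j) w) - (b j w - w) with hD_def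
    have hD : ∀ w ∈ S, ‖D w‖ ≤ Cd * C₂ * ‖x j‖ * ε j := fun w hw => by
      have hin : b j w ∈ cthickening d S :=
        closedBall_subset_cthickening hw d (mem_closedBall_iff_norm.2 ((hbw w hw).trans hjd))
      have h := hdisp (x j) hxj _ hin _ (self_subset_cthickening S hw)
      simp only [hD_def, hσe]
      rw [show e T (x j) (b j w) - e T (x j) w - (b j w - w) =
        e T (x j) (b j w) - b j w - (e T (x j) w - w) by abel]
      refine h.trans (le_trans (mul_le_mul_of_nonneg_left (hbw w hw) (by positivity)) (le_of_eq ?_))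
      ring
    have d1 : DifferentiableOn ℂ (fun w => σ (N + j) w - e T (x j) w) T.V :=
      (diff (hσ _)).fun_sub (diff (e_mem T _))
    have d2 : DifferentiableOn ℂ (fun w => b j w - w) T.V :=
      (diff (hb j)).fun_sub differentiableOn_id
    have hkey : π (jetAt p (fun w => b j w - w)) = -π (jetAt p D) := by
      rw [hD_def, jetAt_sub T hp d1 d2, map_sub, neg_sub, jetAt_sub T hp (diff (hσ _))
        (diff (e_mem T _)), map_sub]
      have := hxeq j
      simp only [hy_def, map_sub, sub_left_inj] at this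
      rw [this, sub_self, sub_zero]
    have hfj : jetAt p (f j) = (ε j)⁻¹ • jetAt p (fun w => b j w - w) := by
      simp only [jetAt, hf_def, Prod.smul_mk]
      congr 1
      exact fderiv_const_smul (d2.differentiableAt (T.isOpen_V.mem_nhds hp)) _
    rw [hfj, map_smul, hkey, norm_smul, norm_neg, norm_inv, Real.norm_eq_abs,
      abs_of_pos (hεpos j), inv_mul_le_iff₀ (hεpos j)]
    refine (hπ _).trans ((mul_le_mul_of_nonneg_left
      (hjb D _ (d1.fun_sub d2) hD) hP).trans (le_of_eq ?_))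
    ring
  have hc0 : c = 0 := by
    refine tendsto_nhds_unique hJ (squeeze_zero_norm' (hφ.tendsto_atTop.eventually hsmallJ) ?_)
    have h := ((((tendsto_norm_zero.comp hx0).comp hφ.tendsto_atTop).const_mul (Cd * C₂)).const_mul
      C₁).const_mul P
    simpa [comp_def] using h
  -- but its maximum on the ball is one
  obtain ⟨z, hz, ψ, hψ, hζz⟩ := hB.tendsto_subseq (fun j => hζ (φ j))
  have hXz : X z = 0 := by rw [hc (hrV hz), hc0, map_zero]; rfl
  have hlim2 : TendstoLocallyUniformlyOn (fun j => f (φ (ψ j))) X atTop T.V := fun u hu w hw => by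
    obtain ⟨s, hs, h⟩ := hlim u hu w hw
    exact ⟨s, hs, hψ.tendsto_atTop.eventually h⟩
  have h1 := (hlim2.tendsto_comp (hX.continuousOn _ (hrV hz)) (hrV hz)
    (tendsto_nhdsWithin_iff.2 ⟨hζz, Eventually.of_forall fun j => hrV (hζ _)⟩)).norm
  rw [hXz, norm_zero] at h1
  have h2 : ∀ j, ‖f (φ (ψ j)) (ζ (φ (ψ j)))‖ = 1 := fun j => by
    rw [hf_def, norm_smul, norm_inv, Real.norm_eq_abs, abs_of_pos (hεpos _)]
    exact inv_mul_cancel₀ (hεpos _).ne'
  simp only [comp_apply, h2] at h1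
  exact zero_ne_one (tendsto_nhds_unique h1 tendsto_const_nhds)

/-- Products of small exponentials are exponentials. -/
theorem e_mul : ∃ ρ > 0, ∃ C ≥ 0, ∀ x y, ‖x‖ ≤ ρ → ‖y‖ ≤ ρ →
    ∃ z, e T x * e T y = e T z ∧ ‖z - (x + y)‖ ≤ C * (‖x‖ + ‖y‖) * ‖y‖ := by
  have : ProperSpace E := FiniteDimensional.proper ℂ E
  obtain ⟨p, hp⟩ := T.connected_V.nonempty
  obtain ⟨r, hr, hrV⟩ := nhds_basis_closedBall.mem_iff.1 (T.isOpen_V.mem_nhds hp)
  obtain ⟨π, P, ρ₀, C₀, hP, hρ₀, -, hπ, -, hcoord⟩ := coord_est T hp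
  obtain ⟨S, C₁, hS, hSV, -, hC₁, hjb⟩ := jetAt_bound T hp
  have hSB : IsCompact (S ∪ closedBall p r) := hS.union (isCompact_closedBall p r)
  obtain ⟨ρ₁, hρ₁, C₂, hC₂, hmul⟩ := mul_est T hSB (union_subset hSV hrV)
  obtain ⟨ρ₂, hρ₂, C₃, hC₃, hd⟩ := diff_est T hSB (union_subset hSV hrV)
  obtain ⟨δ, hδ, hsurj⟩ := surj T hr hrV hρ₀
  set ρ := min (min ρ₁ (ρ₂ / 2)) (min (min (ρ₀ / 2) 1) (δ / (2 * C₂ + 2 * C₃ + 1))) with hρ_def
  refine ⟨ρ, by positivity, 2 * P * C₁ * C₂, by positivity, fun x y hx hy => ?_⟩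
  simp only [hρ_def, le_min_iff] at hx hy
  obtain ⟨⟨hx1, hx2⟩, ⟨hx3, hx5⟩, hx4⟩ := hx
  obtain ⟨⟨hy1, hy2⟩, ⟨hy3, hy5⟩, hy4⟩ := hy
  rw [le_div_iff₀ (by positivity)] at hx4 hy4
  have hxy : ‖x + y‖ ≤ ‖x‖ + ‖y‖ := norm_add_le x y
  have hclose : ∀ z ∈ closedBall p r, ‖(e T x * e T y) z - z‖ ≤ δ := fun z hz => by
    have h1 := hmul x y hx1 hy1 z (Or.inr hz)
    have h2 := (hd (x + y) 0 (by linarith) (by simpa using hρ₂.le) z (Or.inr hz)).1
    rw [e_zero T, Equiv.Perm.one_apply, sub_zero] at h2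
    rw [Equiv.Perm.mul_apply]
    refine (norm_sub_le_norm_sub_add_norm_sub _ (e T (x + y) z) _).trans
      ((add_le_add h1 h2).trans ?_)
    nlinarith [norm_nonneg x, norm_nonneg y,
      mul_le_mul_of_nonneg_left hxy hC₃,
      mul_le_mul_of_nonneg_left (mul_le_of_le_one_right
        (add_nonneg (norm_nonneg x) (norm_nonneg y)) hy5) hC₂]
  obtain ⟨z, hz, heq⟩ := hsurj _ ((Aut T.V).mul_mem (e_mem T x) (e_mem T y)) hclose
  refine ⟨z, heq, ?_⟩
  refine ((hcoord z (x + y) hz (by linarith)).2).trans ?_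
  have hJ : ‖jetAt p (e T z) - jetAt p (e T (x + y))‖ ≤ C₁ * (C₂ * (‖x‖ + ‖y‖) * ‖y‖) := by
    rw [← jetAt_sub T hp (diff (e_mem T z)) (diff (e_mem T _))]
    refine hjb _ _ ((diff (e_mem T z)).fun_sub (diff (e_mem T _))) fun w hw => ?_
    rw [← heq, Equiv.Perm.mul_apply]
    exact hmul x y hx1 hy1 w (Or.inl hw)
  linarith [hπ (jetAt p (e T z) - jetAt p (e T (x + y))), mul_le_mul_of_nonneg_left hJ hP,
    show 2 * P * C₁ * C₂ * (‖x‖ + ‖y‖) * ‖y‖ = 2 * (P * (C₁ * (C₂ * (‖x‖ + ‖y‖) * ‖y‖))) by ring]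

end

end Vale.Agent.P274.Full.Lie
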