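import Vale.Agent.P274.Full.Lie.Field
import Mathlib.LinearAlgebra.Dimension.Free
import Mathlib.LinearAlgebra.FiniteDimensional.Basic

/-!
Estimates for the exponential map near zero.
-/

open Filter Metric Set Function Topology

namespace Vale.Agent.P274.Full.Lie

noncomputable section

variable {E : Type} [NormedAddCommGroup E] [NormedSpace ℂ E] [NormedSpace ℝ E]
  [IsScalarTower ℝ ℂ E] [FiniteDimensional ℂ E] (T : TDom E)

/-- The dimension of the algebra of complete fields. -/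
abbrev dim : ℕ := Module.finrank ℝ (fields T)

/-- The members of a basis of the complete fields. -/
def gen (i : Fin (dim T)) : E → E := (Module.finBasis ℝ (fields T) i).1

/-- The complete field with given coordinates. -/
def field : (Fin (dim T) → ℝ) →ₗ[ℝ] (E → E) :=
  (fields T).subtype.comp (Module.finBasis ℝ (fields T)).equivFun.symm.toLinearMap

theorem field_apply (c : Fin (dim T) → ℝ) : field T c = comb (gen T) c := by
  funext z
  simp [field, comb, gen, Module.Basis.equivFun_symm_apply]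

theorem field_mem (c : Fin (dim T) → ℝ) : field T c ∈ fields T :=
  ((Module.finBasis ℝ (fields T)).equivFun.symm c).2

theorem field_complete (c : Fin (dim T) → ℝ) : IsComplete T.V (field T c) := (field_mem T c).1

theorem field_injective : Injective (field T) :=
  Subtype.val_injective.comp (Module.finBasis ℝ (fields T)).equivFun.symm.injective

theorem exists_coord {X : E → E} (hX : IsComplete T.V X) : ∃ c, EqOn X (field T c) T.V := by
  refine ⟨(Module.finBasis ℝ (fields T)).equivFun ⟨_, indicator_mem T hX⟩, fun z hz => ?_⟩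
  simp only [field, LinearMap.comp_apply, LinearEquiv.coe_coe, LinearEquiv.symm_apply_apply,
    Submodule.subtype_apply, indicator_of_mem hz]

theorem eq_zero_of_eqOn {c : Fin (dim T) → ℝ} (h : EqOn (field T c) 0 T.V) : c = 0 := by
  refine field_injective T ?_
  funext z
  rw [map_zero]
  by_cases hz : z ∈ T.V
  · exact h hz
  · exact (field_mem T c).2 z hz

/-- The automorphism with given coordinates. -/
def e (c : Fin (dim T) → ℝ) : Equiv.Perm E := exp T (field T c)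

theorem e_mem (c : Fin (dim T) → ℝ) : e T c ∈ Aut T.V := exp_mem T _

theorem e_zero : e T 0 = 1 := by rw [e, map_zero, exp_zero]

theorem e_neg (c : Fin (dim T) → ℝ) : e T (-c) = (e T c)⁻¹ := by
  rw [e, map_neg, exp_neg T (field_complete T c)]; rfl

theorem field_bound {L : Set E} (hL : IsCompact L) (hLV : L ⊆ T.V) :
    ∃ M ≥ 0, ∀ c, ∀ z ∈ L, ‖field T c z‖ ≤ M * ‖c‖ := by
  have : ∀ i, ∃ M ≥ 0, ∀ z ∈ L, ‖gen T i z‖ ≤ M := fun i => by
    obtain ⟨M, hM⟩ := hL.exists_bound_of_continuousOn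
      (((Module.finBasis ℝ (fields T) i).2.1.1.continuousOn).mono hLV)
    exact ⟨max M 0, le_max_right _ _, fun z hz => (hM z hz).trans (le_max_left _ _)⟩
  choose M hM0 hM using this
  refine ⟨∑ i, M i, Finset.sum_nonneg fun i _ => hM0 i, fun c z hz => ?_⟩
  rw [field_apply, comb, Finset.sum_mul]
  refine norm_sum_le_of_le _ fun i _ => ?_
  rw [norm_smul, mul_comm]
  exact mul_le_mul (hM i z hz) (norm_le_pi_norm c i) (norm_nonneg _) (hM0 i)

theorem field_lip {L : Set E} (hL : IsCompact L) (hLV : L ⊆ T.V) :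
    ∃ K ≥ 0, ∀ c, ∀ z ∈ L, ∀ w ∈ L, ‖field T c z - field T c w‖ ≤ K * ‖c‖ * ‖z - w‖ := by
  obtain ⟨S', C, hS', hS'V, -, hC, hb⟩ := exists_lipschitz (Y := E) T.isOpen_V hL hLV
  obtain ⟨M, hM, hM'⟩ := field_bound T hS' hS'V
  refine ⟨C * M, mul_nonneg hC hM, fun c z hz w hw => ?_⟩
  rw [mul_assoc C M]
  exact (hb _ _ (field_complete T c).1 (hM' c)).2 z hz w hw

theorem flows_bounded {S : Set E} (hS : IsCompact S) (hSV : S ⊆ T.V) :
    ∃ ρ > 0, ∃ L, IsCompact L ∧ L ⊆ T.V ∧ S ⊆ L ∧ ∀ c, ‖c‖ ≤ ρ → ∀ φ, IsFlow T.V (field T c) φ →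
      ∀ t ∈ Icc (-1 : ℝ) 1, MapsTo (φ t) S L := by
  have : ProperSpace E := FiniteDimensional.proper ℂ E
  obtain ⟨p, hp⟩ := T.connected_V.nonempty
  obtain ⟨r, hr, hrV⟩ := nhds_basis_closedBall.mem_iff.1 (T.isOpen_V.mem_nhds hp)
  obtain ⟨M, hM, hM'⟩ := field_bound T (isCompact_closedBall p r) hrV
  obtain ⟨L, hL, hLV, hL'⟩ := bounded_of_meet T isCompact_singleton (singleton_subset_iff.2 hp)
    (isCompact_closedBall p r) hrV hS hSV
  refine ⟨r / (M + 1), by positivity, L ∪ S, hL.union hS, union_subset hLV hSV,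
    subset_union_right, fun c hc φ hφ t ht z hz => Or.inl ?_⟩
  have hconf := flow_confined T hφ hr hrV (M := M * ‖c‖) (hM' c) (by
    rw [le_div_iff₀ (by positivity)] at hc
    rcases (norm_nonneg c).lt_or_eq with h | h
    · nlinarith
    · rw [← h, mul_zero]; exact hr) ht
  have := hL' (ofAut (flow_isAut hφ t)) (ofAut_mem _) p rfl (by rwa [ofAut_apply _ hp]) hz
  rwa [ofAut_apply _ (hSV hz)] at this

/-- The exponential map is Lipschitz, with linear part the identity. -/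
theorem diff_est {S : Set E} (hS : IsCompact S) (hSV : S ⊆ T.V) :
    ∃ ρ > 0, ∃ C ≥ 0, ∀ x y, ‖x‖ ≤ ρ → ‖y‖ ≤ ρ → ∀ z ∈ S,
      ‖e T x z - e T y z‖ ≤ C * ‖x - y‖ ∧
      ‖e T x z - e T y z - field T (x - y) z‖ ≤ C * (‖x‖ + ‖y‖) * ‖x - y‖ := by
  obtain ⟨ρ, hρ, L, hL, hLV, hSL, hL'⟩ := flows_bounded T hS hSV
  obtain ⟨M, hM, hM'⟩ := field_bound T hL hLV
  obtain ⟨K, hK, hK'⟩ := field_lip T hL hLV
  refine ⟨min ρ (1 / (2 * (K + 1))), lt_min hρ (by positivity),
    max (2 * M) (K * (2 * M)), le_max_of_le_left (by positivity), fun x y hx hy z hz => ?_⟩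
  obtain ⟨φ, hφ⟩ := (field_complete T x).2
  obtain ⟨ψ, hψ⟩ := (field_complete T y).2
  have hxL : ∀ t ∈ Icc (0 : ℝ) 1, φ t z ∈ L := fun t ht =>
    hL' x (hx.trans (min_le_left _ _)) φ hφ t ⟨by linarith [ht.1], ht.2⟩ hz
  have hyL : ∀ t ∈ Icc (0 : ℝ) 1, ψ t z ∈ L := fun t ht =>
    hL' y (hy.trans (min_le_left _ _)) ψ hψ t ⟨by linarith [ht.1], ht.2⟩ hz
  have hKy : K * ‖y‖ ≤ 1 / 2 := by
    have := hy.trans (min_le_right _ _)
    rw [le_div_iff₀ (by positivity)] at this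
    nlinarith [norm_nonneg y]
  have hsplit : ∀ a b, field T x a - field T y b =
      field T (x - y) a + (field T y a - field T y b) := fun a b => by
    simp only [map_sub, Pi.sub_apply]; abel
  have hu : ∀ t ∈ Icc (0 : ℝ) 1, HasDerivWithinAt (fun s => φ s z - ψ s z)
      (field T x (φ t z) - field T y (ψ t z)) (Icc 0 1) t := fun t _ =>
    ((flow_deriv hφ t (hSV hz)).sub (flow_deriv hψ t (hSV hz))).hasDerivWithinAt
  obtain ⟨τ, hτ, hτmax⟩ := isCompact_Icc.exists_isMaxOn (nonempty_Icc.2 zero_le_one)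
    ((flow_continuous hφ (hSV hz)).sub (flow_continuous hψ (hSV hz))).norm.continuousOn
  set U := ‖φ τ z - ψ τ z‖ with hU_def
  have hmax : ∀ t ∈ Icc (0 : ℝ) 1, ‖φ t z - ψ t z‖ ≤ U := fun t ht => hτmax ht
  have hbound : ∀ t ∈ Ico (0 : ℝ) 1,
      ‖field T x (φ t z) - field T y (ψ t z)‖ ≤ M * ‖x - y‖ + U / 2 := fun t ht => by
    have ht' := Ico_subset_Icc_self ht
    rw [hsplit]
    refine (norm_add_le _ _).trans (add_le_add (hM' _ _ (hxL t ht')) ?_)
    refine (hK' _ _ (hxL t ht') _ (hyL t ht')).trans ?_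
    calc K * ‖y‖ * ‖φ t z - ψ t z‖ ≤ 1 / 2 * U :=
          mul_le_mul hKy (hmax t ht') (norm_nonneg _) (by norm_num)
      _ = U / 2 := by ring
  have h0 : φ 0 z - ψ 0 z = 0 := by rw [hφ.2.2.1 z (hSV hz), hψ.2.2.1 z (hSV hz), sub_self]
  have hU : U ≤ 2 * M * ‖x - y‖ := by
    have := norm_image_sub_le_of_norm_deriv_le_segment' hu hbound τ hτ
    simp only [h0, sub_zero] at this
    have hU0 : 0 ≤ U := norm_nonneg _
    nlinarith [hτ.2, hτ.1, mul_nonneg hM (norm_nonneg (x - y))]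
  have hxz : ∀ t ∈ Icc (0 : ℝ) 1, ‖φ t z - z‖ ≤ M * ‖x‖ := fun t ht => by
    have := norm_image_sub_le_of_norm_deriv_le_segment'
      (fun s _ => (flow_deriv hφ s (hSV hz)).hasDerivWithinAt (s := Icc (0 : ℝ) 1))
      (fun s hs => hM' x _ (hxL s (Ico_subset_Icc_self hs))) t ht
    rw [hφ.2.2.1 z (hSV hz), sub_zero] at this
    exact this.trans (mul_le_of_le_one_right (by positivity) ht.2)
  rw [e, e, exp_apply T (field_complete T x).1 hφ (hSV hz),
    exp_apply T (field_complete T y).1 hψ (hSV hz)]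
  have h1 : (1 : ℝ) ∈ Icc (0 : ℝ) 1 := right_mem_Icc.2 zero_le_one
  refine ⟨((hmax 1 h1).trans hU).trans (by gcongr; exact le_max_left _ _), ?_⟩
  have hv : ∀ t ∈ Icc (0 : ℝ) 1, HasDerivWithinAt (fun s => φ s z - ψ s z - s • field T (x - y) z)
      (field T x (φ t z) - field T y (ψ t z) - field T (x - y) z) (Icc 0 1) t := fun t ht => by
    have := (hu t ht).sub ((hasDerivWithinAt_id t _).smul_const (field T (x - y) z))
    simp only [one_smul] at this
    exact this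
  have := norm_image_sub_le_of_norm_deriv_le_segment' hv (C := max (2 * M) (K * (2 * M)) *
    (‖x‖ + ‖y‖) * ‖x - y‖) (fun t ht => ?_) 1 h1
  · simpa [h0] using this
  have ht' := Ico_subset_Icc_self ht
  rw [hsplit, add_sub_right_comm]
  refine (norm_add_le _ _).trans (le_trans (add_le_add
    ((hK' (x - y) _ (hxL t ht') _ (hSL hz)).trans
      (mul_le_mul_of_nonneg_left (hxz t ht') (by positivity)))
    ((hK' y _ (hxL t ht') _ (hyL t ht')).trans
      (mul_le_mul_of_nonneg_left ((hmax t ht').trans hU) (by positivity)))) ?_)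
  have hC2 := le_max_right (2 * M) (K * (2 * M))
  nlinarith [mul_le_mul_of_nonneg_right hC2 (by positivity : 0 ≤ (‖x‖ + ‖y‖) * ‖x - y‖),
    mul_nonneg (mul_nonneg (mul_nonneg hK hM) (norm_nonneg x)) (norm_nonneg (x - y))]

/-- The displacement of `e x` is Lipschitz with a constant linear in `x`. -/
theorem disp_lip {S : Set E} (hS : IsCompact S) (hSV : S ⊆ T.V) :
    ∃ ρ > 0, ∃ C ≥ 0, ∀ x, ‖x‖ ≤ ρ → ∀ z ∈ S, ∀ w ∈ S,
      ‖(e T x z - z) - (e T x w - w)‖ ≤ C * ‖x‖ * ‖z - w‖ := by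
  obtain ⟨S', C, hS', hS'V, -, hC, hb⟩ := exists_lipschitz (Y := E) T.isOpen_V hS hSV
  obtain ⟨ρ, hρ, C₁, hC₁, hd⟩ := diff_est T hS' hS'V
  refine ⟨ρ, hρ, C * C₁, mul_nonneg hC hC₁, fun x hx z hz w hw => ?_⟩
  rw [mul_assoc C C₁]
  exact (hb (fun v => e T x v - v) (C₁ * ‖x‖) ((diff (e_mem T x)).sub differentiableOn_id)
    fun v hv => by simpa [e_zero T] using (hd x 0 hx (by simpa using hρ.le) v hv).1).2 z hz w hw

/-- The exponential map is additive up to second order. -/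
theorem mul_est {S : Set E} (hS : IsCompact S) (hSV : S ⊆ T.V) :
    ∃ ρ > 0, ∃ C ≥ 0, ∀ x y, ‖x‖ ≤ ρ → ‖y‖ ≤ ρ → ∀ z ∈ S,
      ‖e T x (e T y z) - e T (x + y) z‖ ≤ C * (‖x‖ + ‖y‖) * ‖y‖ := by
  obtain ⟨ρ₁, hρ₁, L, hL, hLV, hSL, hL'⟩ := flows_bounded T hS hSV
  obtain ⟨ρ₂, hρ₂, C₁, hC₁, hd⟩ := diff_est T hS hSV
  obtain ⟨ρ₃, hρ₃, C₂, hC₂, hdl⟩ := disp_lip T hL hLV
  refine ⟨min (ρ₂ / 2) (min ρ₁ ρ₃), lt_min (half_pos hρ₂) (lt_min hρ₁ hρ₃),
    C₂ * C₁ + 3 * C₁, by positivity, fun x y hx hy z hz => ?_⟩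
  simp only [le_min_iff] at hx hy
  obtain ⟨φ, hφ⟩ := (field_complete T y).2
  have hw : e T y z ∈ L := by
    rw [e, exp_apply T (field_complete T y).1 hφ (hSV hz)]
    exact hL' y hy.2.1 φ hφ 1 ⟨by norm_num, le_rfl⟩ hz
  have h1 := hdl x hx.2.2 _ hw _ (hSL hz)
  have h2 := hd y 0 (by linarith) (by simpa using hρ₂.le) z hz
  have h3 := (hd x (x + y) (by linarith) ((norm_add_le x y).trans (by linarith)) z hz).2
  simp only [e_zero T, Equiv.Perm.one_apply, sub_zero, norm_zero, add_zero] at h2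
  rw [sub_add_cancel_left, map_neg, Pi.neg_apply, sub_neg_eq_add, norm_neg] at h3
  have key : e T x (e T y z) - e T (x + y) z = ((e T x (e T y z) - e T y z) - (e T x z - z))
      + (e T y z - z - field T y z) + (e T x z - e T (x + y) z + field T y z) := by abel
  rw [key]
  refine (norm_add₃_le ..).trans ?_
  have h4 := h1.trans (mul_le_mul_of_nonneg_left h2.1 (by positivity))
  nlinarith [h2.2, h3, h4, norm_nonneg x, norm_nonneg y,
    mul_le_mul_of_nonneg_left (norm_add_le x y) (mul_nonneg hC₁ (norm_nonneg y)),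
    mul_nonneg (mul_nonneg hC₂ hC₁) (mul_self_nonneg ‖y‖), mul_nonneg hC₁ (mul_self_nonneg ‖y‖),
    mul_nonneg hC₁ (mul_nonneg (norm_nonneg x) (norm_nonneg y))]

end

end Vale.Agent.P274.Full.Lie
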