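import Vale.Agent.P274.Full.Lie.Cartan

/-!
One-parameter groups of automorphisms as limits of powers of automorphisms close to the identity.
-/

open Filter Metric Set Function Topology

namespace Vale.Agent.P274.Full.Lie

noncomputable section

variable {E : Type} [NormedAddCommGroup E] [NormedSpace ℂ E] [FiniteDimensional ℂ E]
  [NormedSpace ℝ E] [IsScalarTower ℝ ℂ E]

/-- The data: automorphisms `σ j` whose rescaled displacements converge. -/
structure Gen (T : TDom E) (σ : ℕ → Equiv.Perm E) (c : ℕ → ℝ) (X : E → E) : Prop where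
  mem : ∀ j, σ j ∈ Aut T.V
  tendsto : Tendsto c atTop atTop
  lim : TendstoLocallyUniformlyOn (fun j z => c j • (σ j z - z)) X atTop T.V

variable {T : TDom E} {σ : ℕ → Equiv.Perm E} {c : ℕ → ℝ} {X : E → E}

theorem Gen.diffX (g : Gen T σ c X) : DifferentiableOn ℂ X T.V := by
  refine P274.differentiableOn_of_tendsto T.isOpen_V g.lim fun z hz => ?_
  obtain ⟨r, hr, hrV⟩ := Metric.isOpen_iff.1 T.isOpen_V z hz
  refine ⟨r, hr, Eventually.of_forall fun j => ?_⟩
  have h : DifferentiableOn ℂ (fun w => ((c j : ℂ)) • (σ j w - w)) T.V :=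
    ((diff (g.mem j)).sub differentiableOn_id).const_smul _
  refine (h.congr fun w _ => ?_).mono hrV
  exact (IsScalarTower.algebraMap_smul ℂ (c j) _).symm

omit [FiniteDimensional ℂ E] [IsScalarTower ℝ ℂ E] in
theorem Gen.posc (g : Gen T σ c X) : ∀ᶠ j in atTop, 0 < c j := g.tendsto.eventually_gt_atTop 0

/-- On a compact set one step moves points by at most a multiple of `1 / c`. -/
theorem Gen.step (g : Gen T σ c X) {L : Set E} (hL : IsCompact L) (hLV : L ⊆ T.V) :
    ∃ M : ℝ, 0 ≤ M ∧ (∀ w ∈ L, ‖X w‖ ≤ M) ∧ ∀ ε > 0, ∀ᶠ j in atTop, 0 < c j ∧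
      ∀ w ∈ L, ‖σ j w - w - (c j)⁻¹ • X w‖ ≤ ε / c j ∧ ‖σ j w - w‖ ≤ (M + ε) / c j := by
  obtain ⟨M, hM⟩ := hL.exists_bound_of_continuousOn (g.diffX.continuousOn.mono hLV)
  refine ⟨max M 0, le_max_right _ _, fun w hw => (hM w hw).trans (le_max_left _ _),
    fun ε hε => ?_⟩
  have hu := Metric.tendstoUniformlyOn_iff.1
    ((tendstoLocallyUniformlyOn_iff_tendstoUniformlyOn_of_compact hL).1 (g.lim.mono hLV)) ε hε
  filter_upwards [g.posc, hu] with j hc hj
  refine ⟨hc, fun w hw => ?_⟩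
  have h := (hj w hw).le
  rw [dist_comm, dist_eq_norm] at h
  have e1 : σ j w - w - (c j)⁻¹ • X w = (c j)⁻¹ • (c j • (σ j w - w) - X w) := by
    rw [smul_sub, smul_smul, inv_mul_cancel₀ hc.ne', one_smul]
  have h1 : ‖σ j w - w - (c j)⁻¹ • X w‖ ≤ ε / c j := by
    rw [e1, norm_smul, Real.norm_eq_abs, abs_of_pos (inv_pos.2 hc), inv_mul_eq_div]
    gcongr
  refine ⟨h1, ?_⟩
  have h2 : ‖(c j)⁻¹ • X w‖ ≤ max M 0 / c j := by
    rw [norm_smul, Real.norm_eq_abs, abs_of_pos (inv_pos.2 hc), inv_mul_eq_div]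
    gcongr
    exact (hM w hw).trans (le_max_left _ _)
  rw [add_div]
  linarith [norm_le_norm_add_norm_sub' (σ j w - w) ((c j)⁻¹ • X w)]

/-- Powers up to a multiple of `c` map compact sets to compact sets, and so do their inverses. -/
theorem Gen.orbit (g : Gen T σ c X) {S : Set E} (hS : IsCompact S) (hSV : S ⊆ T.V) (R : ℝ) :
    ∃ L : Set E, IsCompact L ∧ L ⊆ T.V ∧ ∀ᶠ j in atTop, ∀ k : ℕ, (k : ℝ) ≤ R * c j →
      MapsTo (⇑(σ j ^ k)) S L ∧ MapsTo (⇑(σ j ^ k).symm) S L := by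
  have : ProperSpace E := FiniteDimensional.proper ℂ E
  obtain ⟨p, hp⟩ := T.connected_V.nonempty
  obtain ⟨r, hr, hrV⟩ := nhds_basis_closedBall.mem_iff.1 (T.isOpen_V.mem_nhds hp)
  obtain ⟨M, hM0, -, hM⟩ := g.step (isCompact_closedBall p r) hrV
  set τ := r / (M + 1) with hτ_def
  have hτ : 0 < τ := by positivity
  have near : ∀ᶠ j in atTop, 0 < c j ∧
      ∀ k : ℕ, (k : ℝ) ≤ τ * c j → (σ j ^ k) p ∈ closedBall p r := by
    filter_upwards [hM 1 one_pos] with j hj
    refine ⟨hj.1, fun k hk => ?_⟩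
    have hb : ∀ i ≤ k, ‖(σ j ^ i) p - p‖ ≤ i * ((M + 1) / c j) := by
      intro i hi
      induction i with
      | zero => simp
      | succ i ih =>
        have h1 := ih (Nat.le_of_succ_le hi)
        have hin : (σ j ^ i) p ∈ closedBall p r := by
          rw [mem_closedBall_iff_norm]
          refine h1.trans ?_
          rw [mul_div_assoc', div_le_iff₀ hj.1]
          have : (i : ℝ) ≤ τ * c j :=
            le_trans (by exact_mod_cast Nat.le_of_succ_le hi) hk
          rw [hτ_def, div_mul_eq_mul_div, le_div_iff₀ (by positivity)] at this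
          linarith
        rw [pow_succ', Equiv.Perm.mul_apply, Nat.cast_succ, add_mul, one_mul]
        linarith [norm_sub_le_norm_sub_add_norm_sub (σ j ((σ j ^ i) p)) ((σ j ^ i) p) p,
          (hj.2 _ hin).2]
    rw [mem_closedBall_iff_norm]
    refine (hb k le_rfl).trans ?_
    rw [mul_div_assoc', div_le_iff₀ hj.1]
    rw [hτ_def, div_mul_eq_mul_div, le_div_iff₀ (by positivity)] at hk
    linarith
  have iter : ∀ m : ℕ, ∃ L : Set E, IsCompact L ∧ L ⊆ T.V ∧ ∀ᶠ j in atTop, ∀ k : ℕ,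
      k ≤ m * ⌊τ * c j⌋₊ → MapsTo (⇑(σ j ^ k)) S L ∧ MapsTo (⇑(σ j ^ k).symm) S L := by
    intro m
    induction m with
    | zero =>
      refine ⟨S, hS, hSV, Eventually.of_forall fun j k hk => ?_⟩
      obtain rfl : k = 0 := by simpa using hk
      exact ⟨fun x hx => hx, fun x hx => hx⟩
    | succ m ih =>
      obtain ⟨L, hL, hLV, hev⟩ := ih
      obtain ⟨L₁, h11, h12, h13⟩ := bounded_of_meet T isCompact_singleton
        (singleton_subset_iff.2 hp) (isCompact_closedBall p r) hrV hL hLV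
      obtain ⟨L₂, h21, h22, h23⟩ := bounded_symm_of_meet T isCompact_singleton
        (singleton_subset_iff.2 hp) (isCompact_closedBall p r) hrV hL hLV
      refine ⟨L₁ ∪ L₂, h11.union h21, union_subset h12 h22, ?_⟩
      filter_upwards [hev, near] with j hj hn k hk
      obtain ⟨a, b, rfl, ha, hb⟩ : ∃ a b, k = a + b ∧ a ≤ ⌊τ * c j⌋₊ ∧
          b ≤ m * ⌊τ * c j⌋₊ :=
        ⟨min k ⌊τ * c j⌋₊, k - min k ⌊τ * c j⌋₊, by omega, min_le_right _ _,
          by rw [Nat.succ_mul] at hk; omega⟩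
      have hap := hn.2 a ((Nat.cast_le.2 ha).trans (Nat.floor_le (by nlinarith [hn.1])))
      have hmem := (Aut T.V).pow_mem (g.mem j) a
      refine ⟨fun z hz => ?_, fun z hz => ?_⟩
      · rw [pow_add, Equiv.Perm.mul_apply]
        exact .inl (h13 _ hmem p rfl hap ((hj b hb).1 hz))
      · rw [add_comm, pow_add, show (σ j ^ b * σ j ^ a).symm z =
          (σ j ^ a).symm ((σ j ^ b).symm z) from rfl]
        exact .inr (h23 _ hmem p rfl hap ((hj b hb).2 hz))
  obtain ⟨m, hm⟩ := exists_nat_ge (2 * R / τ)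
  obtain ⟨L, hL, hLV, hev⟩ := iter m
  refine ⟨L, hL, hLV, ?_⟩
  filter_upwards [hev, g.tendsto.eventually_ge_atTop (2 / τ), g.posc] with j hj hc2 hc k hk
  refine hj k (Nat.cast_le (α := ℝ).1 ?_)
  rw [div_le_iff₀ hτ] at hm hc2
  have hfl := Nat.lt_floor_add_one (τ * c j)
  push_cast
  have hm0 : (0 : ℝ) ≤ m := m.cast_nonneg
  nlinarith [mul_le_mul_of_nonneg_right hm hc.le,
    mul_le_mul_of_nonneg_left (show τ * c j ≤ 2 * (⌊τ * c j⌋₊ : ℝ) by linarith) hm0]

/-- Blocks of steps follow the field. -/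
theorem Gen.block (g : Gen T σ c X) {S : Set E} (hS : IsCompact S) (hSV : S ⊆ T.V) (R : ℝ) :
    ∃ (L : Set E) (M K : ℝ), IsCompact L ∧ L ⊆ T.V ∧ 0 ≤ M ∧ 0 ≤ K ∧ (∀ w ∈ L, ‖X w‖ ≤ M) ∧
      (∀ v ∈ L, ∀ w ∈ L, ‖X v - X w‖ ≤ K * ‖v - w‖) ∧
      ∀ ε > 0, ε ≤ 1 → ∀ᶠ j in atTop, 0 < c j ∧
        (∀ k : ℕ, (k : ℝ) ≤ R * c j → MapsTo (⇑(σ j ^ k)) S L ∧ MapsTo (⇑(σ j ^ k).symm) S L) ∧
        ∀ z ∈ S, ∀ k n : ℕ, ((k + n : ℕ) : ℝ) ≤ R * c j →
          ‖(σ j ^ (k + n)) z - (σ j ^ k) z‖ ≤ n / c j * (M + 1) ∧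
          ‖(σ j ^ (k + n)) z - (σ j ^ k) z - (n / c j) • X ((σ j ^ k) z)‖ ≤
            n / c j * (ε + K * (M + 1) * (n / c j)) := by
  obtain ⟨L, hL, hLV, hev⟩ := g.orbit hS hSV R
  obtain ⟨M, hM0, hXM, hM⟩ := g.step hL hLV
  obtain ⟨S', C₁, hS', hS'V, -, hC₁, hb⟩ := exists_lipschitz (Y := E) T.isOpen_V hL hLV
  obtain ⟨M', hM'⟩ := hS'.exists_bound_of_continuousOn (g.diffX.continuousOn.mono hS'V)
  set K := C₁ * max M' 0 with hK_def
  have hlip : ∀ v ∈ L, ∀ w ∈ L, ‖X v - X w‖ ≤ K * ‖v - w‖ :=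
    (hb X (max M' 0) g.diffX fun w hw => (hM' w hw).trans (le_max_left _ _)).2
  refine ⟨L, M, K, hL, hLV, hM0, by positivity, hXM, hlip, fun ε hε hε1 => ?_⟩
  filter_upwards [hev, hM ε hε] with j hj hj'
  obtain ⟨hc, hs⟩ := hj'
  refine ⟨hc, hj, fun z hz k n hkn => ?_⟩
  induction n with
  | zero => simp
  | succ n ih =>
    have hkn' : ((k + n : ℕ) : ℝ) ≤ R * c j := le_trans (by push_cast; linarith) hkn
    obtain ⟨h1, h2⟩ := ih hkn'
    have hk : (k : ℝ) ≤ R * c j := le_trans (by push_cast; simp) hkn'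
    set x := (σ j ^ k) z with hx
    set y := (σ j ^ (k + n)) z with hy
    obtain ⟨s1, s2⟩ := hs y ((hj _ hkn').1 hz)
    have hyx := hlip y ((hj _ hkn').1 hz) x ((hj _ hk).1 hz)
    have ey : (σ j ^ (k + (n + 1))) z = σ j y := by
      rw [← add_assoc, pow_succ', Equiv.Perm.mul_apply]
    rw [ey, Nat.cast_succ]
    refine ⟨?_, ?_⟩
    · have : (M + ε) / c j ≤ (M + 1) / c j := by gcongr
      rw [add_div, add_mul, one_div_mul_eq_div]
      linarith [norm_sub_le_norm_sub_add_norm_sub (σ j y) y x]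
    · have e1 : σ j y - x - ((n + 1 : ℝ) / c j) • X x = (y - x - ((n : ℝ) / c j) • X x) +
          ((σ j y - y - (c j)⁻¹ • X y) + (c j)⁻¹ • (X y - X x)) := by
        rw [add_div, add_smul, one_div, smul_sub]; abel
      rw [e1]
      refine (norm_add_le _ _).trans ?_
      have h3 : ‖(c j)⁻¹ • (X y - X x)‖ ≤ K * ((n : ℝ) / c j * (M + 1)) / c j := by
        rw [norm_smul, Real.norm_eq_abs, abs_of_pos (inv_pos.2 hc), inv_mul_eq_div]
        gcongr
        exact hyx.trans (mul_le_mul_of_nonneg_left h1 (by positivity))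
      have h4 := norm_add_le (σ j y - y - (c j)⁻¹ • X y) ((c j)⁻¹ • (X y - X x))
      have h5 : (n : ℝ) / c j * (ε + K * (M + 1) * ((n : ℝ) / c j)) + ε / c j +
          K * ((n : ℝ) / c j * (M + 1)) / c j ≤
          ((n + 1 : ℝ) / c j) * (ε + K * (M + 1) * ((n + 1 : ℝ) / c j)) := by
        have : 0 ≤ K * (M + 1) / c j ^ 2 * ((n : ℝ) + 1) := by positivity
        have e2 : ((n + 1 : ℝ) / c j) * (ε + K * (M + 1) * ((n + 1 : ℝ) / c j)) -
            ((n : ℝ) / c j * (ε + K * (M + 1) * ((n : ℝ) / c j)) + ε / c j +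
              K * ((n : ℝ) / c j * (M + 1)) / c j) = K * (M + 1) / c j ^ 2 * ((n : ℝ) + 1) := by
          field_simp; ring
        linarith
      linarith

/-- The discrete orbits form a Cauchy sequence. -/
theorem Gen.cauchy (g : Gen T σ c X) {z : E} (hz : z ∈ T.V) {t : ℝ} (ht : 0 ≤ t) :
    CauchySeq fun j => (σ j ^ ⌊t * c j⌋₊) z := by
  obtain ⟨L, M, K, -, -, hM0, hK, hXM, hlip, hblock⟩ :=
    g.block isCompact_singleton (singleton_subset_iff.2 hz) t
  rw [Metric.cauchySeq_iff']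
  intro ε hε
  set C₁ := 2 * (1 + 2 * K * (M + 1)) + M with hC₁
  have hC₁0 : 0 ≤ C₁ := by positivity
  obtain ⟨N₀, hN₀⟩ := exists_nat_gt (2 * C₁ * t ^ 2 * Real.exp (K * t) / ε + t)
  have hN : 0 < (N₀ : ℝ) := lt_of_le_of_lt (by positivity) hN₀
  rcases ht.eq_or_lt with ht0 | htpos
  · exact ⟨0, fun j _ => by simp [← ht0, hε]⟩
  set h := t / N₀ with hh_def
  have hh : 0 < h := div_pos htpos hN
  have hh1 : h ≤ 1 := by
    rw [hh_def, div_le_one hN]
    have : 0 ≤ 2 * C₁ * t ^ 2 * Real.exp (K * t) / ε := by positivity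
    linarith
  have hNh : (N₀ : ℝ) * h = t := mul_div_cancel₀ t hN.ne'
  let y : ℕ → ℕ → E := fun j i => (σ j ^ ⌊(i : ℝ) * h * c j⌋₊) z
  have hstep : ∀ᶠ j in atTop, ∀ i < N₀,
      y j i ∈ L ∧ ‖y j (i + 1) - y j i - h • X (y j i)‖ ≤ C₁ * h ^ 2 := by
    filter_upwards [hblock h hh hh1, g.tendsto.eventually_ge_atTop (1 / h ^ 2)] with j hj hch i hi
    obtain ⟨hc, horb, hb⟩ := hj
    rw [div_le_iff₀ (by positivity)] at hch
    set a := ⌊(i : ℝ) * h * c j⌋₊ with ha
    set b := ⌊((i + 1 : ℕ) : ℝ) * h * c j⌋₊ with hb'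
    have hab : a ≤ b := Nat.floor_le_floor (by gcongr; exact Nat.le_succ i)
    have hbR : (b : ℝ) ≤ t * c j := by
      refine (Nat.floor_le (by positivity)).trans ?_
      rw [← hNh]; gcongr; exact_mod_cast hi
    obtain ⟨n, hn⟩ := Nat.exists_eq_add_of_le hab
    have haR : (a : ℝ) ≤ t * c j := le_trans (by exact_mod_cast hab) hbR
    refine ⟨(horb a haR).1 rfl, ?_⟩
    have hB := (hb z rfl a n (by rw [← hn]; exact hbR)).2
    rw [← hn] at hB
    have l1 := Nat.floor_le (show 0 ≤ (i : ℝ) * h * c j by positivity)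
    have l2 := Nat.lt_floor_add_one ((i : ℝ) * h * c j)
    have l3 := Nat.floor_le (show 0 ≤ ((i + 1 : ℕ) : ℝ) * h * c j by positivity)
    have l4 := Nat.lt_floor_add_one (((i + 1 : ℕ) : ℝ) * h * c j)
    rw [← ha] at l1 l2
    rw [← hb'] at l3 l4
    have hbn : (b : ℝ) = a + n := by exact_mod_cast hn
    push_cast at l3 l4
    have hd : |(n : ℝ) / c j - h| ≤ 1 / c j := by
      rw [div_sub' hc.ne', abs_div, abs_of_pos hc]
      gcongr
      rw [abs_le]; constructor <;> linarith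
    have hcc : 1 / c j ≤ h ^ 2 := by rw [div_le_iff₀ hc]; linarith
    have hn2 : (n : ℝ) / c j ≤ 2 * h := by
      have := (abs_le.1 hd).2
      nlinarith
    have e : y j (i + 1) - y j i - h • X (y j i) =
        ((σ j ^ b) z - (σ j ^ a) z - ((n : ℝ) / c j) • X ((σ j ^ a) z)) +
          ((n : ℝ) / c j - h) • X ((σ j ^ a) z) := by
      simp only [y, ← ha, ← hb', sub_smul]; abel
    rw [e]
    refine (norm_add_le _ _).trans ?_
    rw [norm_smul, Real.norm_eq_abs]
    refine (add_le_add (hB.trans ?_) (mul_le_mul (hd.trans hcc) (hXM _ ((horb a haR).1 rfl))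
      (norm_nonneg _) (sq_nonneg h))).trans_eq (b := 2 * (1 + 2 * K * (M + 1)) * h ^ 2 + h ^ 2 * M)
      (by rw [hC₁]; ring)
    calc (n : ℝ) / c j * (h + K * (M + 1) * ((n : ℝ) / c j))
        ≤ 2 * h * (h + K * (M + 1) * (2 * h)) := by gcongr
      _ = 2 * (1 + 2 * K * (M + 1)) * h ^ 2 := by ring
  obtain ⟨J, hJ⟩ := eventually_atTop.1 hstep
  refine ⟨J, fun j hj => ?_⟩
  have key : ∀ i ≤ N₀, ‖y j i - y J i‖ ≤ i * (2 * C₁ * h ^ 2) * Real.exp (K * h * i) := by
    intro i hi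
    induction i with
    | zero => simp [y]
    | succ i ih =>
      obtain ⟨hyj, dj⟩ := hJ j hj i hi
      obtain ⟨hyJ, dJ⟩ := hJ J le_rfl i hi
      have hi' := ih (Nat.le_of_succ_le hi)
      have e : y j (i + 1) - y J (i + 1) = ((y j (i + 1) - y j i - h • X (y j i)) -
          (y J (i + 1) - y J i - h • X (y J i))) + ((y j i - y J i) +
            h • (X (y j i) - X (y J i))) := by
        rw [smul_sub]; abel
      rw [e]
      refine (norm_add_le _ _).trans ?_
      have t1 := (norm_sub_le (y j (i + 1) - y j i - h • X (y j i))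
        (y J (i + 1) - y J i - h • X (y J i))).trans (add_le_add dj dJ)
      have t2 : ‖h • (X (y j i) - X (y J i))‖ ≤ h * K * ‖y j i - y J i‖ := by
        rw [norm_smul, Real.norm_eq_abs, abs_of_pos hh, mul_assoc]
        gcongr
        exact hlip _ hyj _ hyJ
      have t3 := norm_add_le (y j i - y J i) (h • (X (y j i) - X (y J i)))
      set D := ‖y j i - y J i‖
      set e2 := 2 * C₁ * h ^ 2
      have he2 : 0 ≤ e2 := by positivity
      have hexp : (1 + h * K) * Real.exp (K * h * i) ≤ Real.exp (K * h * (i + 1 : ℕ)) := by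
        rw [show K * h * ((i + 1 : ℕ) : ℝ) = h * K + K * h * i by push_cast; ring, Real.exp_add]
        gcongr
        rw [add_comm]; exact Real.add_one_le_exp _
      have hone : 1 ≤ Real.exp (K * h * (i + 1 : ℕ)) := Real.one_le_exp (by positivity)
      have t4 : (1 + h * K) * D ≤ i * e2 * Real.exp (K * h * (i + 1 : ℕ)) :=
        calc (1 + h * K) * D ≤ (1 + h * K) * (i * e2 * Real.exp (K * h * i)) := by gcongr
          _ = i * e2 * ((1 + h * K) * Real.exp (K * h * i)) := by ring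
          _ ≤ _ := by gcongr
      have t5 : e2 ≤ e2 * Real.exp (K * h * (i + 1 : ℕ)) := le_mul_of_one_le_right he2 hone
      push_cast at t4 t5 ⊢
      linarith
  have := key N₀ le_rfl
  simp only [y, hNh] at this
  rw [show K * h * (N₀ : ℝ) = K * t by rw [mul_assoc, mul_comm h, hNh],
    show (N₀ : ℝ) * (2 * C₁ * h ^ 2) = 2 * C₁ * t ^ 2 / N₀ by rw [hh_def]; field_simp] at this
  rw [dist_eq_norm]
  refine this.trans_lt ?_
  rw [div_mul_eq_mul_div, div_lt_iff₀ hN]
  have h6 : 2 * C₁ * t ^ 2 * Real.exp (K * t) / ε < N₀ := by linarith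
  rw [div_lt_iff₀ hε] at h6
  linarith

/-- The limit automorphism at a nonnegative time. -/
theorem Gen.exists_time (g : Gen T σ c X) {t : ℝ} (ht : 0 ≤ t) :
    ∃ τ ∈ Aut T.V, ∀ z ∈ T.V, Tendsto (fun j => (σ j ^ ⌊t * c j⌋₊) z) atTop (𝓝 (τ z)) ∧
      ∀ L : Set E, IsClosed L → (∀ᶠ j in atTop, (σ j ^ ⌊t * c j⌋₊).symm z ∈ L) → τ.symm z ∈ L := by
  have : ProperSpace E := FiniteDimensional.proper ℂ E
  obtain ⟨p, hp⟩ := T.connected_V.nonempty
  obtain ⟨L₀, hL₀, hL₀V, hev⟩ := g.orbit isCompact_singleton (singleton_subset_iff.2 hp) t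
  obtain ⟨J, hJ⟩ := eventually_atTop.1 (hev.and g.posc)
  obtain ⟨φ, hφ, τ, hτ, hlim, hlim'⟩ := exists_subseq T isCompact_singleton
    (singleton_subset_iff.2 hp) hL₀ hL₀V (fun j => σ (j + J) ^ ⌊t * c (j + J)⌋₊)
    (fun j => (Aut T.V).pow_mem (g.mem _) _) fun j => by
      obtain ⟨h1, h2⟩ := hJ (j + J) (Nat.le_add_left _ _)
      exact ⟨p, rfl, (h1 _ (Nat.floor_le (by positivity))).1 rfl⟩
  have hmono : Tendsto (fun j => φ j + J) atTop atTop :=
    (tendsto_add_atTop_nat J).comp hφ.tendsto_atTop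
  refine ⟨τ, hτ, fun z hz => ⟨tendsto_nhds_of_cauchySeq_of_subseq (g.cauchy hz ht) hmono
    (hlim.tendsto_at hz), fun L hL hev' => ?_⟩⟩
  exact hL.mem_of_tendsto (hlim'.tendsto_at hz) (hmono.eventually hev')

/-- The limit at time `t`. -/
def Gen.time (g : Gen T σ c X) (t : ℝ) : Equiv.Perm E :=
  if h : 0 ≤ t then (g.exists_time h).choose else 1

theorem Gen.time_mem (g : Gen T σ c X) (t : ℝ) : g.time t ∈ Aut T.V := by
  unfold Gen.time
  split_ifs with h
  · exact (g.exists_time h).choose_spec.1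
  · exact (Aut T.V).one_mem

theorem Gen.time_tendsto (g : Gen T σ c X) {t : ℝ} (ht : 0 ≤ t) {z : E} (hz : z ∈ T.V) :
    Tendsto (fun j => (σ j ^ ⌊t * c j⌋₊) z) atTop (𝓝 (g.time t z)) := by
  rw [Gen.time, dif_pos ht]
  exact ((g.exists_time ht).choose_spec.2 z hz).1

theorem Gen.time_symm_mem (g : Gen T σ c X) {t : ℝ} (ht : 0 ≤ t) {z : E} (hz : z ∈ T.V)
    {L : Set E} (hL : IsClosed L)
    (hev : ∀ᶠ j in atTop, (σ j ^ ⌊t * c j⌋₊).symm z ∈ L) : (g.time t).symm z ∈ L := by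
  rw [Gen.time, dif_pos ht]
  exact ((g.exists_time ht).choose_spec.2 z hz).2 L hL hev

theorem Gen.time_add (g : Gen T σ c X) {a b : ℝ} (ha : 0 ≤ a) (hb : 0 ≤ b) :
    g.time (a + b) = g.time a * g.time b := by
  have : ProperSpace E := FiniteDimensional.proper ℂ E
  refine ext (g.time_mem _) ((Aut T.V).mul_mem (g.time_mem _) (g.time_mem _)) fun z hz => ?_
  rw [Equiv.Perm.mul_apply]
  set w := g.time b z
  have hw : w ∈ T.V := mapsTo (g.time_mem b) hz
  have hlimb := g.time_tendsto hb hz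
  obtain ⟨r, hr, hrV⟩ := nhds_basis_closedBall.mem_iff.1 (T.isOpen_V.mem_nhds hw)
  obtain ⟨S', C, hS', hS'V, -, hC, hlipb⟩ :=
    exists_lipschitz (Y := E) T.isOpen_V (isCompact_closedBall w r) hrV
  obtain ⟨L', hL', -, hev'⟩ := g.orbit hS' hS'V a
  obtain ⟨M', hM'⟩ := hL'.isBounded.exists_norm_le
  obtain ⟨L, M, K, -, -, hM0, -, -, -, hblock⟩ :=
    g.block isCompact_singleton (singleton_subset_iff.2 hz) (a + b)
  have hlim : Tendsto (fun j => (σ j ^ ⌊(a + b) * c j⌋₊) z) atTop (𝓝 (g.time a w)) := by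
    rw [tendsto_iff_norm_sub_tendsto_zero]
    have hz1 : Tendsto (fun j => (M + 1) / c j +
        C * max M' 0 * ‖(σ j ^ ⌊b * c j⌋₊) z - w‖ +
        ‖(σ j ^ ⌊a * c j⌋₊) w - g.time a w‖) atTop (𝓝 0) := by
      have t1 : Tendsto (fun j => (M + 1) / c j) atTop (𝓝 0) := g.tendsto.const_div_atTop _
      have t2 := (tendsto_iff_norm_sub_tendsto_zero.1 hlimb).const_mul (C * max M' 0)
      have t3 := tendsto_iff_norm_sub_tendsto_zero.1 (g.time_tendsto ha hw)
      simpa using (t1.add t2).add t3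
    refine squeeze_zero' (Eventually.of_forall fun _ => norm_nonneg _) ?_ hz1
    filter_upwards [hblock 1 one_pos le_rfl, hev',
      hlimb.eventually (closedBall_mem_nhds w hr)] with j hj hj' hin
    obtain ⟨hc, -, hb'⟩ := hj
    set na := ⌊a * c j⌋₊
    set nb := ⌊b * c j⌋₊
    set ns := ⌊(a + b) * c j⌋₊
    have hsum : na + nb ≤ ns ∧ ns ≤ na + nb + 1 := by
      constructor
      · refine Nat.le_floor ?_
        push_cast
        nlinarith [Nat.floor_le (show 0 ≤ a * c j by positivity),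
          Nat.floor_le (show 0 ≤ b * c j by positivity)]
      · refine Nat.lt_succ_iff.1 ((Nat.floor_lt (by positivity)).2 ?_)
        push_cast
        nlinarith [Nat.lt_floor_add_one (a * c j), Nat.lt_floor_add_one (b * c j)]
    obtain ⟨n, hn⟩ := Nat.exists_eq_add_of_le hsum.1
    have hnR : ((na + nb + n : ℕ) : ℝ) ≤ (a + b) * c j := by
      rw [← hn]; exact Nat.floor_le (by positivity)
    have t1 : ‖(σ j ^ ns) z - (σ j ^ (na + nb)) z‖ ≤ (M + 1) / c j := by
      have hh := (hb' z rfl (na + nb) n hnR).1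
      rw [hn]
      have hnn : n = 0 ∨ n = 1 := by omega
      rcases hnn with rfl | rfl
      · simp only [add_zero, sub_self, norm_zero]
        positivity
      · simpa [div_eq_inv_mul] using hh
    have hlip := (hlipb (⇑(σ j ^ na)) (max M' 0) (diff ((Aut T.V).pow_mem (g.mem j) na))
      fun v hv => (hM' _ ((hj' na (Nat.floor_le (by positivity))).1 hv)).trans (le_max_left _ _)).2
      _ hin w (mem_closedBall_self hr.le)
    have e : (σ j ^ (na + nb)) z = (σ j ^ na) ((σ j ^ nb) z) := by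
      rw [pow_add, Equiv.Perm.mul_apply]
    rw [e] at t1
    have t2 := norm_sub_le_norm_sub_add_norm_sub ((σ j ^ ns) z) ((σ j ^ na) ((σ j ^ nb) z))
      (g.time a w)
    have t3 := norm_sub_le_norm_sub_add_norm_sub ((σ j ^ na) ((σ j ^ nb) z)) ((σ j ^ na) w)
      (g.time a w)
    linarith
  exact tendsto_nhds_unique (g.time_tendsto (add_nonneg ha hb) hz) hlim

/-- The one-parameter group. -/
def Gen.flow (g : Gen T σ c X) (t : ℝ) : Equiv.Perm E := g.time (|t| + t) * (g.time |t|)⁻¹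

theorem Gen.flow_eq (g : Gen T σ c X) {a b : ℝ} (ha : 0 ≤ a) (hb : 0 ≤ b) :
    g.flow (a - b) = g.time a * (g.time b)⁻¹ := by
  have h0 : (0 : ℝ) ≤ |a - b| + (a - b) := by linarith [neg_abs_le (a - b)]
  rw [Gen.flow, mul_inv_eq_iff_eq_mul, mul_assoc, eq_comm]
  have hcomm : ∀ {u v : ℝ}, 0 ≤ u → 0 ≤ v → Commute (g.time u) (g.time v) := fun hu hv => by
    rw [commute_iff_eq, ← g.time_add hu hv, ← g.time_add hv hu, add_comm]
  rw [((hcomm (abs_nonneg _) hb).inv_right.symm).eq, ← mul_assoc, mul_inv_eq_iff_eq_mul,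
    ← g.time_add ha (abs_nonneg _), ← g.time_add h0 hb]
  congr 1
  ring

theorem Gen.flow_add (g : Gen T σ c X) (s t : ℝ) : g.flow (s + t) = g.flow s * g.flow t := by
  have hcomm : ∀ {u v : ℝ}, 0 ≤ u → 0 ≤ v → Commute (g.time u) (g.time v) := fun hu hv => by
    rw [commute_iff_eq, ← g.time_add hu hv, ← g.time_add hv hu, add_comm]
  have hs : (0 : ℝ) ≤ |s| + s := by linarith [neg_abs_le s]
  have ht : (0 : ℝ) ≤ |t| + t := by linarith [neg_abs_le t]
  rw [show s + t = ((|s| + s) + (|t| + t)) - (|t| + |s|) by ring,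
    g.flow_eq (by positivity) (by positivity), g.time_add hs ht,
    g.time_add (abs_nonneg t) (abs_nonneg s), mul_inv_rev, Gen.flow, Gen.flow]
  rw [mul_assoc, mul_assoc, ← mul_assoc (g.time (|t| + t)),
    ((hcomm ht (abs_nonneg s)).inv_right).eq, mul_assoc]

/-- A short step follows the field. -/
theorem Gen.time_near (g : Gen T σ c X) {S : Set E} (hS : IsCompact S) (hSV : S ⊆ T.V) :
    ∃ C : ℝ, 0 ≤ C ∧ ∀ h : ℝ, 0 ≤ h → h ≤ 1 → ∀ z ∈ S,
      ‖g.time h z - z - h • X z‖ ≤ C * h ^ 2 := by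
  obtain ⟨L, M, K, -, -, hM0, hK, -, -, hblock⟩ := g.block hS hSV 1
  refine ⟨K * (M + 1), by positivity, fun h hh hh1 z hz => ?_⟩
  have hfl : Tendsto (fun j => (⌊h * c j⌋₊ : ℝ) / c j) atTop (𝓝 h) := by
    rw [tendsto_iff_norm_sub_tendsto_zero]
    refine squeeze_zero' (Eventually.of_forall fun _ => norm_nonneg _) ?_
      (g.tendsto.const_div_atTop 1)
    filter_upwards [g.posc] with j hc
    rw [Real.norm_eq_abs, div_sub' hc.ne', abs_div, abs_of_pos hc]
    gcongr
    rw [abs_le]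
    constructor <;>
      nlinarith [Nat.floor_le (show 0 ≤ h * c j by positivity), Nat.lt_floor_add_one (h * c j)]
  have hL' := (((g.time_tendsto hh (hSV hz)).sub_const z).sub (hfl.smul_const (X z))).norm
  refine le_of_forall_gt_imp_ge_of_dense fun a ha => ?_
  set δ := a - K * (M + 1) * h ^ 2 with hδ
  have hδ0 : 0 < δ := by simp only [hδ]; linarith
  have hR := (hfl.mul ((hfl.const_mul (K * (M + 1))).const_add (min δ 1)))
  refine (le_of_tendsto_of_tendsto hL' hR ?_).trans ?_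
  · filter_upwards [hblock (min δ 1) (lt_min hδ0 one_pos) (min_le_right _ _)] with j hj
    obtain ⟨hc, -, hb⟩ := hj
    have hn : ((0 + ⌊h * c j⌋₊ : ℕ) : ℝ) ≤ 1 * c j := by
      rw [zero_add]
      exact (Nat.floor_le (by positivity)).trans (by gcongr)
    simpa using (hb z hz 0 _ hn).2
  · have : h * min δ 1 ≤ δ := le_trans (mul_le_of_le_one_left (by positivity) hh1) (min_le_left _ _)
    simp only [hδ] at this ⊢
    nlinarith

theorem Gen.flow_deriv_zero (g : Gen T σ c X) {z : E} (hz : z ∈ T.V) :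
    HasDerivAt (fun s => g.flow s z) (X z) 0 := by
  have : ProperSpace E := FiniteDimensional.proper ℂ E
  have h0 : g.flow 0 z = z := by simp [Gen.flow]
  obtain ⟨L, M, K, hL, hLV, hM0, hK, hXM, hlip, hblock⟩ :=
    g.block isCompact_singleton (singleton_subset_iff.2 hz) 1
  have hzL : z ∈ L := by
    obtain ⟨j, hc, horb, -⟩ := (hblock 1 one_pos le_rfl).exists
    simpa using ((horb 0 (by simp; positivity)).1 (mem_singleton z))
  obtain ⟨C, hC, hnear⟩ := g.time_near hL hLV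
  set B := C + K * (M + C)
  have h00 : g.time 0 = 1 := by
    have := g.time_add (le_refl (0 : ℝ)) le_rfl
    rw [add_zero] at this
    simpa using this
  have key : ∀ s : ℝ, |s| ≤ 1 → ‖g.flow s z - z - s • X z‖ ≤ B * s ^ 2 := by
    intro s hs
    rcases le_total 0 s with h | h
    · rw [show g.flow s = g.time s by simpa [h00] using g.flow_eq h le_rfl]
      refine (hnear s h (by linarith [le_abs_self s]) z hzL).trans ?_
      gcongr
      exact le_add_of_nonneg_right (by positivity)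
    · set u := -s with hu
      have hu0 : 0 ≤ u := by simp only [hu]; linarith
      have hu1 : u ≤ 1 := by simp only [hu]; linarith [neg_abs_le s]
      have ef : g.flow s = (g.time u)⁻¹ := by
        rw [show s = 0 - u by simp [hu], g.flow_eq le_rfl hu0, h00, one_mul]
      set w := (g.time u).symm z with hw_def
      have hw : w ∈ L := by
        refine g.time_symm_mem hu0 hz hL.isClosed ?_
        filter_upwards [hblock 1 one_pos le_rfl] with j hj
        refine (hj.2.1 _ ?_).2 (mem_singleton z)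
        exact (Nat.floor_le (by have := hj.1; positivity)).trans
          (mul_le_mul_of_nonneg_right hu1 hj.1.le)
      have h1 := hnear u hu0 hu1 w hw
      rw [show g.time u w = z from (g.time u).apply_symm_apply z] at h1
      have h2 : ‖z - w‖ ≤ (M + C) * u := by
        have h3 := norm_le_norm_add_norm_sub' (z - w) (u • X w)
        rw [norm_smul, Real.norm_eq_abs, abs_of_nonneg hu0] at h3
        nlinarith [hXM w hw, mul_le_mul_of_nonneg_left (hXM w hw) hu0,
          mul_le_mul_of_nonneg_left hu1 (mul_nonneg hC hu0)]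
      have h4 : ‖u • (X z - X w)‖ ≤ u * (K * ((M + C) * u)) := by
        rw [norm_smul, Real.norm_eq_abs, abs_of_nonneg hu0]
        gcongr
        exact (hlip z hzL w hw).trans (by gcongr)
      rw [ef, show (g.time u)⁻¹ z = w from rfl,
        show w - z - s • X z = -(z - w - u • X w) + u • (X z - X w) by
          simp only [hu, neg_smul, smul_sub]; abel]
      refine (norm_add_le _ _).trans ?_
      rw [norm_neg, show B * s ^ 2 = C * u ^ 2 + u * (K * ((M + C) * u)) by simp only [hu, B]; ring]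
      linarith
  rw [hasDerivAt_iff_isLittleO_nhds_zero]
  simp only [zero_add, h0]
  refine Asymptotics.IsBigO.trans_isLittleO (g := fun s : ℝ => s ^ 2) ?_
    (Asymptotics.isLittleO_pow_id one_lt_two)
  refine Asymptotics.IsBigO.of_bound B ?_
  filter_upwards [closedBall_mem_nhds (0 : ℝ) one_pos] with s hs
  rw [mem_closedBall_zero_iff, Real.norm_eq_abs] at hs
  simpa using key s hs

/-- A limit of rescaled displacements of automorphisms generates a one-parameter group. -/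
theorem isComplete_of_tendsto (T : TDom E) (σ : ℕ → Equiv.Perm E) (hσ : ∀ j, σ j ∈ Aut T.V)
    (c : ℕ → ℝ) (hc : Tendsto c atTop atTop) (X : E → E)
    (hlim : TendstoLocallyUniformlyOn (fun j z => c j • (σ j z - z)) X atTop T.V) :
    IsComplete T.V X := by
  have g : Gen T σ c X := ⟨hσ, hc, hlim⟩
  have hmem : ∀ t, g.flow t ∈ Aut T.V := fun t =>
    (Aut T.V).mul_mem (g.time_mem _) ((Aut T.V).inv_mem (g.time_mem _))
  refine ⟨g.diffX, fun t => ⇑(g.flow t), fun t => diff (hmem t), fun t => mapsTo (hmem t),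
    fun z _ => by simp [Gen.flow], fun s t z _ => by simp [g.flow_add],
    fun t z hz => ?_⟩
  have h1 := g.flow_deriv_zero (mapsTo (hmem t) hz)
  have h2 : (fun s => g.flow s z) = fun s => g.flow (s - t) (g.flow t z) := by
    funext s
    rw [← Equiv.Perm.mul_apply, ← g.flow_add, sub_add_cancel]
  rw [h2]
  exact HasDerivAt.comp_sub_const t t (f := fun s => g.flow s (g.flow t z))
    (by rwa [sub_self])

end

end Vale.Agent.P274.Full.Lie
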