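import Vale.Agent.P274.Full.Lie.Flow
import Vale.Agent.P274.Full.Lie.Limit
import Mathlib.Algebra.Module.Submodule.Basic

/-!
The algebra of complete fields is finite dimensional; the exponential map.
-/

open Filter Metric Set Function Topology

namespace Vale.Agent.P274.Full.Lie

noncomputable section

variable {E : Type} [NormedAddCommGroup E] [NormedSpace ℂ E] [NormedSpace ℝ E]
  [IsScalarTower ℝ ℂ E] [FiniteDimensional ℂ E] (T : TDom E) {X Y : E → E}

omit [IsScalarTower ℝ ℂ E] [FiniteDimensional ℂ E] in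
theorem isComplete_congr (hX : IsComplete T.V X) (h : EqOn X Y T.V) : IsComplete T.V Y :=
  ⟨hX.1.congr fun _ hz => (h hz).symm, let ⟨φ, hφ⟩ := hX.2; ⟨φ, flow_congr hφ h⟩⟩

omit [IsScalarTower ℝ ℂ E] [FiniteDimensional ℂ E] in
theorem isComplete_zero : IsComplete T.V (0 : E → E) :=
  ⟨differentiableOn_const 0, fun _ z => z, fun _ => differentiableOn_id, fun _ _ hz => hz,
    fun _ _ => rfl, fun _ _ _ _ => rfl, fun t z _ => hasDerivAt_const t z⟩

omit [FiniteDimensional ℂ E] in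
theorem isComplete_smul (c : ℝ) (hX : IsComplete T.V X) : IsComplete T.V (c • X) :=
  ⟨hX.1.const_smul c, let ⟨_, hφ⟩ := hX.2; ⟨_, flow_smul hφ c⟩⟩

theorem isComplete_push (hX : IsComplete T.V X) {a b : E → E} (hab : IsAut T.V a b) :
    IsComplete T.V (push a b X) := by
  obtain ⟨φ, hφ⟩ := hX.2
  refine ⟨flow_diff T ?_ (flow_push hφ T.isOpen_V hab), _, flow_push hφ T.isOpen_V hab⟩
  exact ((Surface.continuousOn_fderiv T.isOpen_V hab.1).comp hab.2.1.continuousOn hab.2.2.2.1)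
    |>.clm_apply (hX.1.continuousOn.comp hab.2.1.continuousOn hab.2.2.2.1)

theorem isComplete_add (hX : IsComplete T.V X) (hY : IsComplete T.V Y) :
    IsComplete T.V (X + Y) := by
  have : ProperSpace E := FiniteDimensional.proper ℂ E
  obtain ⟨φ, hφ⟩ := hX.2
  obtain ⟨ψ, hψ⟩ := hY.2
  set t : ℕ → ℝ := fun j => 1 / ((j : ℝ) + 1) with ht_def
  have ht : ∀ j, 0 < t j := fun j => by positivity
  have ht0 : Tendsto t atTop (𝓝 0) := tendsto_one_div_add_atTop_nhds_zero_nat
  refine isComplete_of_tendsto T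
    (fun j => ofAut (flow_isAut hφ (t j)) * ofAut (flow_isAut hψ (t j)))
    (fun j => (Aut T.V).mul_mem (ofAut_mem _) (ofAut_mem _)) (fun j => (t j)⁻¹)
    (tendsto_inv_nhdsGT_zero.comp
      (tendsto_nhdsWithin_iff.2 ⟨ht0, Eventually.of_forall ht⟩)) _ ?_
  rw [tendstoLocallyUniformlyOn_iff_forall_isCompact T.isOpen_V]
  intro S hSV hS
  rw [Metric.tendstoUniformlyOn_iff]
  intro ε hε
  obtain ⟨L, hL, hLV, hL'⟩ := flow_bounded T hψ hS hSV 1
  obtain ⟨κ, hκ, hκ'⟩ := Metric.uniformContinuousOn_iff.1 ((hL.union hS).uniformContinuousOn_of_continuous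
    (hX.1.continuousOn.mono (union_subset hLV hSV))) (ε / 4) (by positivity)
  obtain ⟨δ₁, hδ₁, h₁⟩ := flow_expand T hY.1.continuousOn hψ hS hSV
    (lt_min (by positivity : 0 < ε / 4) (half_pos hκ))
  obtain ⟨δ₂, hδ₂, h₂⟩ := flow_expand T hX.1.continuousOn hφ hL hLV (by positivity : 0 < ε / 4)
  filter_upwards [Metric.tendsto_nhds.1 ht0 _ (lt_min one_pos (lt_min hδ₁ hδ₂))] with j hj z hz
  rw [dist_zero_right, Real.norm_eq_abs, lt_min_iff, lt_min_iff, abs_of_pos (ht j)] at hj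
  obtain ⟨hj1, hjδ₁, hjδ₂⟩ := hj
  have hw : ψ (t j) z ∈ L := hL' (t j) ⟨by linarith [ht j], hj1.le⟩ hz
  have e₁ := h₁ (t j) (by rw [abs_of_pos (ht j)]; exact hjδ₁.le) z hz
  have e₂ := (h₂ (t j) (by rw [abs_of_pos (ht j)]; exact hjδ₂.le) _ hw).1
  rw [abs_of_pos (ht j)] at e₁ e₂
  have e₃ : ‖X (ψ (t j) z) - X z‖ ≤ ε / 4 := by
    rw [← dist_eq_norm]
    refine (hκ' _ (Or.inl hw) _ (Or.inr hz) ?_).le
    rw [dist_eq_norm]
    exact (e₁.2.trans (min_le_right _ _)).trans_lt (half_lt_self hκ)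
  rw [Equiv.Perm.mul_apply, ofAut_apply _ (hSV hz), ofAut_apply _ (hLV hw), dist_comm,
    dist_eq_norm, Pi.add_apply]
  have key : (t j)⁻¹ • (φ (t j) (ψ (t j) z) - z) - (X z + Y z) =
      (t j)⁻¹ • ((φ (t j) (ψ (t j) z) - ψ (t j) z - t j • X (ψ (t j) z))
        + (ψ (t j) z - z - t j • Y z)) + (X (ψ (t j) z) - X z) := by
    simp only [smul_add, smul_sub, inv_smul_smul₀ (ht j).ne']
    abel
  rw [key]
  refine (norm_add_le _ _).trans_lt ?_
  rw [norm_smul, norm_inv, Real.norm_eq_abs, abs_of_pos (ht j)]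
  have e₄ : (t j)⁻¹ * ‖φ (t j) (ψ (t j) z) - ψ (t j) z - t j • X (ψ (t j) z)
      + (ψ (t j) z - z - t j • Y z)‖ ≤ ε / 2 := by
    rw [inv_mul_le_iff₀ (ht j)]
    nlinarith [norm_add_le (φ (t j) (ψ (t j) z) - ψ (t j) z - t j • X (ψ (t j) z))
      (ψ (t j) z - z - t j • Y z), mul_le_mul_of_nonneg_right (min_le_left (ε / 4) (κ / 2)) (ht j).le]
  linarith

/-- The complete fields, extended by zero. -/
def fields : Submodule ℝ (E → E) where
  carrier := {X | IsComplete T.V X ∧ ∀ z ∉ T.V, X z = 0}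
  zero_mem' := ⟨isComplete_zero T, fun _ _ => rfl⟩
  add_mem' hX hY := ⟨isComplete_add T hX.1 hY.1,
    fun z hz => by simp [hX.2 z hz, hY.2 z hz]⟩
  smul_mem' c X hX := ⟨isComplete_smul T c hX.1, fun z hz => by simp [hX.2 z hz]⟩

theorem indicator_mem (hX : IsComplete T.V X) : T.V.indicator X ∈ fields T :=
  ⟨isComplete_congr T hX fun _ hz => (indicator_of_mem hz X).symm,
    fun _ hz => indicator_of_notMem hz X⟩

/-- A complete field vanishing to first order at a point vanishes. -/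
theorem eqOn_zero_of_jet (hX : IsComplete T.V X) {p : E} (hp : p ∈ T.V) (h0 : X p = 0)
    (h1 : fderiv ℂ X p = 0) : EqOn X 0 T.V := by
  obtain ⟨φ, hφ⟩ := hX.2
  have hn := T.isOpen_V.mem_nhds hp
  have hfix := flow_fix T hX.1 hφ hp h0
  have hd : ∀ t, DifferentiableAt ℂ (φ t) p := fun t => (hφ.1 t).differentiableAt hn
  have hmul : ∀ s t, fderiv ℂ (φ (s + t)) p = (fderiv ℂ (φ s) p).comp (fderiv ℂ (φ t) p) := by
    intro s t
    rw [Filter.EventuallyEq.fderiv_eq (𝕜 := ℂ)
      (eventually_of_mem hn (hφ.2.2.2.1 s t) : φ (s + t) =ᶠ[𝓝 p] φ s ∘ φ t), fderiv_comp p (by rw [hfix t]; exact hd s) (hd t),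
      hfix t]
  have hzero : fderiv ℂ (φ 0) p = ContinuousLinearMap.id ℂ E := by
    rw [Filter.EventuallyEq.fderiv_eq (𝕜 := ℂ)
      (eventually_of_mem hn hφ.2.2.1 : φ 0 =ᶠ[𝓝 p] id), fderiv_id]
  have hid : ∀ t : ℝ, fderiv ℂ (φ t) p = ContinuousLinearMap.id ℂ E := by
    intro t
    rcases eq_or_ne t 0 with rfl | ht
    · exact hzero
    set s : ℕ → ℝ := fun j => t / ((j : ℝ) + 1) with hs_def
    have hs : ∀ j, s j ≠ 0 := fun j => div_ne_zero ht (by positivity)
    have hs0 : Tendsto s atTop (𝓝 0) := by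
      have h := (tendsto_one_div_add_atTop_nhds_zero_nat (𝕜 := ℝ)).const_mul t
      rw [mul_zero] at h
      exact h.congr fun j => mul_one_div _ _
    have hq := tendsto_fderiv T.isOpen_V (flow_quot T hX.1.continuousOn hφ s hs hs0)
      (fun j => ((hφ.1 _).sub differentiableOn_id).const_smul _) hX.1 hp
    rw [h1] at hq
    have hq' : Tendsto (fun j => |s j|⁻¹ * ‖fderiv ℂ (φ (s j)) p - ContinuousLinearMap.id ℂ E‖)
        atTop (𝓝 0) := by
      refine hq.norm.congr' (Eventually.of_forall fun j => ?_) |>.trans (by simp)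
      change ‖fderiv ℂ ((s j)⁻¹ • fun z => φ (s j) z - z) p‖ = _
      rw [fderiv_const_smul (by fun_prop), fderiv_fun_sub (hd _) differentiableAt_fun_id,
        fderiv_fun_id, norm_smul, norm_inv, Real.norm_eq_abs]
    refine tendsto_nhds_unique tendsto_const_nhds (b := ContinuousLinearMap.id ℂ E)
      (f := fun _ : ℕ => fderiv ℂ (φ t) p) (l := atTop) ?_
    rw [tendsto_iff_norm_sub_tendsto_zero]
    refine squeeze_zero' (Eventually.of_forall fun _ => norm_nonneg _) ?_
      (by simpa using hq'.const_mul (2 * |t|))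
    filter_upwards [(hq'.const_mul (2 * |t|)).eventually_le_const
      (u := 1) (by simp)] with j hj
    set δ := ‖fderiv ℂ (φ (s j)) p - ContinuousLinearMap.id ℂ E‖ with hδ
    have hsj : ((j : ℝ) + 1) * s j = t := by
      simp only [hs_def]
      field_simp
    have hδt : 2 * |t| * (|s j|⁻¹ * δ) = 2 * ((j : ℝ) + 1) * δ := by
      have : |t| = ((j : ℝ) + 1) * |s j| := by
        conv_lhs => rw [← hsj, abs_mul, abs_of_pos (by positivity : (0 : ℝ) < (j : ℝ) + 1)]
      rw [this]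
      have := abs_ne_zero.2 (hs j)
      field_simp
    rw [hδt] at hj ⊢
    have key : ∀ k ≤ j + 1,
        ‖fderiv ℂ (φ ((k : ℝ) * s j)) p - ContinuousLinearMap.id ℂ E‖ ≤ 2 * k * δ := by
      intro k hk
      induction k with
      | zero => simp [hzero]
      | succ k ih =>
        have ih := ih (Nat.le_of_succ_le hk)
        rw [Nat.cast_succ, add_one_mul, add_comm, hmul]
        have hk' : 2 * (k : ℝ) * δ ≤ 1 := le_trans (by
          gcongr; exact_mod_cast Nat.le_of_succ_le hk) hj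
        set A := fderiv ℂ (φ (s j)) p
        set D := fderiv ℂ (φ ((k : ℝ) * s j)) p
        set I := ContinuousLinearMap.id ℂ E
        have : A.comp D - I = (A - I).comp (D - I) + (A - I) + (D - I) := by
          ext v; simp [I]
        rw [this]
        refine (norm_add₃_le ..).trans ?_
        have h1 := (A - I).opNorm_comp_le (D - I)
        have h2 := norm_nonneg (A - I)
        nlinarith [mul_le_mul_of_nonneg_left (ih.trans hk') h2]
    have := key (j + 1) le_rfl
    rw [Nat.cast_succ, hsj] at this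
    exact this
  intro z hz
  have hconst : ∀ t, φ t z = z := fun t => by
    have h := eq_one_of_fderiv T (ofAut_mem (flow_isAut hφ t)) hp
      (by rw [ofAut_apply _ hp, hfix t]) (by
        rw [Filter.EventuallyEq.fderiv_eq (𝕜 := ℂ)
          (eventually_of_mem hn fun w hw => ofAut_apply (flow_isAut hφ t) hw :
          ⇑(ofAut (flow_isAut hφ t)) =ᶠ[𝓝 p] φ t), hid t])
    have := Equiv.ext_iff.1 h z
    rwa [ofAut_apply _ hz] at this
  have := (flow_deriv hφ 0 hz).unique ((hasDerivAt_const (0 : ℝ) z).congr_of_eventuallyEq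
    (Eventually.of_forall hconst))
  rwa [hφ.2.2.1 z hz] at this

/-- The first jet of a field at a point. -/
def jet {p : E} (hp : p ∈ T.V) : fields T →ₗ[ℝ] E × (E →L[ℂ] E) where
  toFun X := (X.1 p, fderiv ℂ X.1 p)
  map_add' X Y := by
    have hn := T.isOpen_V.mem_nhds hp
    simp only [Submodule.coe_add, Pi.add_apply, Prod.mk_add_mk,
      fderiv_add (X.2.1.1.differentiableAt hn) (Y.2.1.1.differentiableAt hn)]
  map_smul' c X := by
    simp only [SetLike.val_smul, Pi.smul_apply, Prod.smul_mk, RingHom.id_apply,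
      fderiv_const_smul (X.2.1.1.differentiableAt (T.isOpen_V.mem_nhds hp))]

theorem jet_injective {p : E} (hp : p ∈ T.V) : Injective (jet T hp) := by
  rw [← LinearMap.ker_eq_bot, LinearMap.ker_eq_bot']
  intro X hX
  simp only [jet, LinearMap.coe_mk, AddHom.coe_mk, Prod.mk_eq_zero] at hX
  ext z
  by_cases hz : z ∈ T.V
  · exact eqOn_zero_of_jet T X.2.1 hp hX.1 hX.2 hz
  · exact X.2.2 z hz

instance : FiniteDimensional ℝ (fields T) := by
  obtain ⟨p, hp⟩ := T.connected_V.nonempty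
  have : FiniteDimensional ℝ E := Module.Finite.trans ℂ E
  have : FiniteDimensional ℝ (E →L[ℂ] E) := Module.Finite.trans ℂ (E →L[ℂ] E)
  exact FiniteDimensional.of_injective (jet T hp) (jet_injective T hp)

open scoped Classical in
/-- The time one map of a complete field. -/
def exp (X : E → E) : Equiv.Perm E :=
  if h : ∃ φ, IsFlow T.V X φ then ofAut (flow_isAut h.choose_spec 1) else 1

omit [IsScalarTower ℝ ℂ E] [FiniteDimensional ℂ E] in
theorem exp_mem (X : E → E) : exp T X ∈ Aut T.V := by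
  unfold exp
  split
  · exact ofAut_mem _
  · exact (Aut T.V).one_mem

omit [IsScalarTower ℝ ℂ E] in
theorem exp_apply {φ : ℝ → E → E} (hX : DifferentiableOn ℂ X T.V) (hφ : IsFlow T.V X φ) {z : E}
    (hz : z ∈ T.V) : exp T X z = φ 1 z := by
  have h : ∃ φ, IsFlow T.V X φ := ⟨φ, hφ⟩
  rw [exp, dif_pos h, ofAut_apply _ hz, flow_unique T hX h.choose_spec hφ 1 hz]

theorem exp_smul {φ : ℝ → E → E} (hX : DifferentiableOn ℂ X T.V) (hφ : IsFlow T.V X φ) (t : ℝ)
    {z : E} (hz : z ∈ T.V) : exp T (t • X) z = φ t z := by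
  rw [exp_apply T (hX.const_smul t) (flow_smul hφ t) hz, mul_one]

theorem exp_zero : exp T (0 : E → E) = 1 := by
  refine ext (exp_mem T _) (Aut T.V).one_mem fun z hz => ?_
  obtain ⟨φ, hφ⟩ := (isComplete_zero T).2
  have h := exp_smul T (isComplete_zero T).1 hφ 0 hz
  rwa [smul_zero, hφ.2.2.1 z hz] at h

theorem exp_neg (hX : IsComplete T.V X) : exp T (-X) = (exp T X)⁻¹ := by
  obtain ⟨φ, hφ⟩ := hX.2
  refine eq_inv_of_mul_eq_one_left
    (ext ((Aut T.V).mul_mem (exp_mem T _) (exp_mem T _)) (Aut T.V).one_mem fun z hz => ?_)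
  rw [Equiv.Perm.mul_apply, ← neg_one_smul ℝ X, exp_smul T hX.1 hφ _ (mapsTo (exp_mem T X) hz),
    exp_apply T hX.1 hφ hz, flow_left_inv hφ 1 hz]
  rfl

theorem exp_conj (hX : IsComplete T.V X) {σ : Equiv.Perm E} (hσ : σ ∈ Aut T.V) :
    σ * exp T X * σ⁻¹ = exp T (push σ σ.symm X) := by
  obtain ⟨φ, hφ⟩ := hX.2
  refine ext ((Aut T.V).mul_mem ((Aut T.V).mul_mem hσ (exp_mem T _)) ((Aut T.V).inv_mem hσ))
    (exp_mem T _) fun z hz => ?_
  rw [exp_apply T (isComplete_push T hX (isAut hσ)).1 (flow_push hφ T.isOpen_V (isAut hσ)) hz,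
    Equiv.Perm.mul_apply, Equiv.Perm.mul_apply, Equiv.Perm.inv_def,
    exp_apply T hX.1 hφ (mapsTo (symm_mem hσ) hz)]

end

end Vale.Agent.P274.Full.Lie
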