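import Mathlib.LinearAlgebra.Determinant
import Mathlib.MeasureTheory.Measure.Lebesgue.EqHaar

/-!
Packing numbers modulo a discrete cocompact subgroup: conjugation has determinant `±1` in
exponential coordinates.
-/

open Set Metric MeasureTheory
open scoped ENNReal

namespace Vale.Agent.P274.Full.Lie

noncomputable section

variable {G : Type*} [Group G] {d : ℕ}

/-- `N` translates of `W` that stay disjoint modulo `Γ`. -/
def Pack (Γ : Subgroup G) (W : Set G) (N : ℕ) : Prop :=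
  ∃ f : Fin N → G, ∀ γ ∈ Γ, ∀ i j, ∀ w ∈ W, ∀ w' ∈ W, γ * f i * w = f j * w' → γ = 1 ∧ i = j

variable {Γ : Subgroup G}

theorem Pack.conj {W W' : Set G} {N : ℕ} (h : Pack Γ W N) (g : G)
    (hW : ∀ w' ∈ W', ∃ w ∈ W, w' = g * w * g⁻¹) : Pack Γ W' N := by
  obtain ⟨f, hf⟩ := h
  refine ⟨fun i => f i * g⁻¹, fun γ hγ i j u hu u' hu' he => ?_⟩
  obtain ⟨w, hw, rfl⟩ := hW u hu
  obtain ⟨w', hw', rfl⟩ := hW u' hu'
  refine hf γ hγ i j w hw w' hw' (mul_right_cancel (b := g⁻¹) ?_)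
  simpa only [mul_assoc, inv_mul_cancel_left] using he

theorem Pack.move {W : Set G} {N : ℕ} {f : Fin N → G}
    (h : ∀ γ ∈ Γ, ∀ i j, ∀ w ∈ W, ∀ w' ∈ W, γ * f i * w = f j * w' → γ = 1 ∧ i = j)
    {a : Fin N → G} (ha : ∀ i, a i ∈ Γ) :
    ∀ γ ∈ Γ, ∀ i j, ∀ w ∈ W, ∀ w' ∈ W, γ * (a i * f i) * w = a j * f j * w' →
      γ = 1 ∧ i = j := by
  intro γ hγ i j w hw w' hw' he
  have h1 : (a j)⁻¹ * γ * a i * f i * w = f j * w' := by
    rw [mul_assoc (a j) (f j) w', ← inv_mul_eq_iff_eq_mul] at he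
    simpa only [mul_assoc] using he
  obtain ⟨e1, rfl⟩ :=
    h _ (Γ.mul_mem (Γ.mul_mem (Γ.inv_mem (ha j)) hγ) (ha i)) i j w hw w' hw' h1
  refine ⟨?_, rfl⟩
  have : (a i)⁻¹ * γ * a i = 1 := e1
  simpa [mul_assoc, inv_mul_eq_one] using this

variable {e : (Fin d → ℝ) → G} {r₀ C : ℝ}

/-- The hypotheses on the exponential coordinates. -/
structure Coord (e : (Fin d → ℝ) → G) (r₀ C : ℝ) : Prop where
  pos : 0 < r₀
  one_le : 1 ≤ C
  zero : e 0 = 1
  neg : ∀ x, e (-x) = (e x)⁻¹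
  inj : InjOn e (closedBall 0 r₀)
  mul : ∀ x ∈ closedBall (0 : Fin d → ℝ) r₀, ∀ y ∈ closedBall (0 : Fin d → ℝ) r₀,
    ∃ z, e x * e y = e z ∧ ‖z - (x + y)‖ ≤ C * (‖x‖ + ‖y‖) * ‖y‖

/-- A radius below which the estimates hold. -/
def rad (r₀ C : ℝ) : ℝ := min r₀ 1 / (64 * C)

theorem Coord.rad_pos (h : Coord e r₀ C) : 0 < rad r₀ C :=
  div_pos (lt_min h.pos one_pos) (by linarith [h.one_le])

theorem Coord.rad_le (h : Coord e r₀ C) : 64 * rad r₀ C ≤ r₀ ∧ 64 * C * rad r₀ C ≤ 1 := by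
  have hC := h.one_le
  have hp := h.rad_pos
  have e1 : 64 * C * rad r₀ C = min r₀ 1 := mul_div_cancel₀ _ (by linarith)
  refine ⟨?_, e1 ▸ min_le_right _ _⟩
  calc 64 * rad r₀ C ≤ 64 * C * rad r₀ C := by nlinarith
    _ = min r₀ 1 := e1
    _ ≤ r₀ := min_le_left _ _

theorem Coord.mul_small (h : Coord e r₀ C) {x y : Fin d → ℝ} (hx : ‖x‖ ≤ 16 * rad r₀ C)
    (hy : ‖y‖ ≤ 16 * rad r₀ C) :
    ∃ z, e x * e y = e z ∧ ‖z‖ ≤ 2 * (‖x‖ + ‖y‖) ∧
      ‖z - (x + y)‖ ≤ C * (‖x‖ + ‖y‖) * ‖y‖ := by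
  obtain ⟨h1, h2⟩ := h.rad_le
  have hp := h.rad_pos
  obtain ⟨z, hz, hb⟩ := h.mul x (mem_closedBall_zero_iff.2 (by linarith)) y
    (mem_closedBall_zero_iff.2 (by linarith))
  refine ⟨z, hz, ?_, hb⟩
  have hC := h.one_le
  have hCy : C * ‖y‖ ≤ 1 := by nlinarith [norm_nonneg y]
  have : C * (‖x‖ + ‖y‖) * ‖y‖ ≤ ‖x‖ + ‖y‖ := by
    nlinarith [norm_nonneg x, norm_nonneg y]
  have := norm_le_norm_add_norm_sub' z (x + y)
  have := norm_add_le x y
  linarith

/-- Translating `v` to `v'`, the increment is close to `v' - v`. -/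
theorem Coord.quot (h : Coord e r₀ C) {ρ : ℝ} (hρ : ρ ≤ rad r₀ C) {v v' : Fin d → ℝ}
    (hv : ‖v‖ ≤ ρ) (hv' : ‖v'‖ ≤ ρ) :
    ∃ w, e v * e w = e v' ∧ ‖w‖ ≤ 2 * ‖v' - v‖ ∧
      ‖w - (v' - v)‖ ≤ 16 * C * ρ * ‖v' - v‖ := by
  obtain ⟨h1, h2⟩ := h.rad_le
  have hp := h.rad_pos
  have hC := h.one_le
  obtain ⟨w, hw, hwn, -⟩ := h.mul_small (x := -v) (y := v')
    (by rw [norm_neg]; linarith) (by linarith)
  rw [norm_neg] at hwn
  have hvw : e v * e w = e v' := by rw [← hw, h.neg, mul_inv_cancel_left]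
  obtain ⟨z, hz, hzn, hzb⟩ := h.mul_small (x := v) (y := w) (by linarith) (by linarith)
  obtain rfl : z = v' := h.inj (mem_closedBall_zero_iff.2 (by linarith [norm_nonneg v]))
    (mem_closedBall_zero_iff.2 (by linarith)) (hz.symm.trans hvw)
  have hb : ‖w - (z - v)‖ ≤ 5 * C * ρ * ‖w‖ := by
    rw [show w - (z - v) = -(z - (v + w)) by abel, norm_neg]
    refine hzb.trans (mul_le_mul_of_nonneg_right ?_ (norm_nonneg w))
    nlinarith [norm_nonneg v, norm_nonneg w]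
  have hwle : ‖w‖ ≤ 2 * ‖z - v‖ := by
    have := norm_le_norm_add_norm_sub' w (z - v)
    have h10 : 5 * C * ρ ≤ 1 / 2 := by nlinarith
    nlinarith [mul_le_mul_of_nonneg_right h10 (norm_nonneg w)]
  refine ⟨w, hvw, hwle, hb.trans ?_⟩
  have hρ0 : 0 ≤ ρ := (norm_nonneg v).trans hv
  nlinarith [mul_le_mul_of_nonneg_left hwle (show 0 ≤ 5 * C * ρ by positivity), norm_nonneg (z - v),
    mul_nonneg (show 0 ≤ C * ρ by positivity) (norm_nonneg (z - v))]

/-- Many small balls pack. -/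
theorem pack_lower (h : Coord e r₀ C)
    (disc : ∀ γ ∈ Γ, ∀ x ∈ closedBall (0 : Fin d → ℝ) r₀, γ = e x → γ = 1) :
    ∃ c > 0, ∀ ε, 0 < ε → ε ≤ rad r₀ C →
      ∃ N : ℕ, Pack Γ (e '' closedBall 0 ε) N ∧ c / ε ^ d ≤ N := by
  obtain ⟨h1, h2⟩ := h.rad_le
  have hp := h.rad_pos
  have hC := h.one_le
  set ρ := rad r₀ C
  refine ⟨(ρ / 4) ^ d, by positivity, fun ε hε hερ => ?_⟩
  set M := ⌊ρ / (4 * ε)⌋₊ + 1 with hM
  let ι := Fintype.equivFin (Fin d → Fin M)
  let x : Fin (Fintype.card (Fin d → Fin M)) → Fin d → ℝ :=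
    fun i c => 4 * ε * ((ι.symm i c : ℕ) : ℝ)
  have hx : ∀ i, ‖x i‖ ≤ ρ := fun i => (pi_norm_le_iff_of_nonneg hp.le).2 fun c => by
    have hle : ((ι.symm i c : ℕ) : ℝ) ≤ ρ / (4 * ε) :=
      (Nat.cast_le.2 (Nat.lt_succ_iff.1 (ι.symm i c).2)).trans
        (Nat.floor_le (by positivity))
    rw [le_div_iff₀ (by positivity)] at hle
    rw [Real.norm_eq_abs, abs_of_nonneg (by positivity)]
    linarith
  refine ⟨_, ⟨fun i => e (x i), ?_⟩, ?_⟩
  · rintro γ hγ i j - ⟨a, ha, rfl⟩ - ⟨b, hb, rfl⟩ he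
    rw [mem_closedBall_zero_iff] at ha hb
    obtain ⟨z₁, hz₁, hz₁n, hz₁b⟩ := h.mul_small (x := x i) (y := a)
      (by linarith [hx i]) (by linarith)
    obtain ⟨z₂, hz₂, hz₂n, hz₂b⟩ := h.mul_small (x := x j) (y := b)
      (by linarith [hx j]) (by linarith)
    obtain ⟨z, hz, hzn, -⟩ := h.mul_small (x := z₂) (y := -z₁)
      (by linarith [hx j]) (by rw [norm_neg]; linarith [hx i])
    rw [norm_neg] at hzn
    rw [mul_assoc, hz₁, hz₂] at he
    have hγe : γ = e z := by rw [← hz, h.neg, eq_mul_inv_iff_mul_eq, he]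
    obtain rfl := disc γ hγ z
      (mem_closedBall_zero_iff.2 (by linarith [hx i, hx j])) hγe
    rw [one_mul] at he
    obtain rfl : z₁ = z₂ := h.inj (mem_closedBall_zero_iff.2 (by linarith [hx i]))
      (mem_closedBall_zero_iff.2 (by linarith [hx j])) he
    refine ⟨rfl, ι.symm.injective (funext fun c => Fin.ext ?_)⟩
    have e1 : ‖x i - x j‖ ≤ 3 * ε := by
      have hb1 : C * (‖x i‖ + ‖a‖) * ‖a‖ ≤ ε / 2 := by
        have : C * (‖x i‖ + ‖a‖) ≤ 1 / 2 := by nlinarith [hx i, norm_nonneg (x i), norm_nonneg a]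
        nlinarith [norm_nonneg a]
      have hb2 : C * (‖x j‖ + ‖b‖) * ‖b‖ ≤ ε / 2 := by
        have : C * (‖x j‖ + ‖b‖) ≤ 1 / 2 := by nlinarith [hx j, norm_nonneg (x j), norm_nonneg b]
        nlinarith [norm_nonneg b]
      calc ‖x i - x j‖ = ‖((z₁ - (x j + b)) - (z₁ - (x i + a))) + (b - a)‖ := by congr 1; abel
        _ ≤ _ := norm_add_le _ _
        _ ≤ (‖z₁ - (x j + b)‖ + ‖z₁ - (x i + a)‖) + (‖b‖ + ‖a‖) :=
          add_le_add (norm_sub_le _ _) (norm_sub_le _ _)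
        _ ≤ 3 * ε := by linarith
    have e2 := (norm_le_pi_norm (x i - x j) c).trans e1
    simp only [Pi.sub_apply, Real.norm_eq_abs, x, ← mul_sub, abs_mul,
      abs_of_pos (show 0 < 4 * ε by positivity)] at e2
    have e3 : |((ι.symm i c : ℕ) : ℝ) - (ι.symm j c : ℕ)| < 1 := by nlinarith
    rw [abs_lt] at e3
    have l1 : ((ι.symm i c : ℕ) : ℝ) < ((ι.symm j c : ℕ) + 1 : ℕ) := by push_cast; linarith
    have l2 : ((ι.symm j c : ℕ) : ℝ) < ((ι.symm i c : ℕ) + 1 : ℕ) := by push_cast; linarith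
    have := Nat.cast_lt.1 l1
    have := Nat.cast_lt.1 l2
    omega
  · rw [Fintype.card_pi, Finset.prod_const, Fintype.card_fin, Finset.card_univ, Fintype.card_fin,
      ← div_pow, Nat.cast_pow, hM, Nat.cast_add, Nat.cast_one]
    refine pow_le_pow_left₀ (by positivity) ?_ d
    rw [div_div]
    exact (Nat.lt_floor_add_one _).le

/-- Disjoint linear images of balls in a ball. -/
theorem card_mul_det_le {n : Type*} [Fintype n] (L : (Fin d → ℝ) →ₗ[ℝ] (Fin d → ℝ))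
    (v : n → Fin d → ℝ) {δ R : ℝ} (hδ : 0 < δ) (hR : 0 ≤ R)
    (hdisj : ∀ i j, i ≠ j → ∀ a ∈ ball (0 : Fin d → ℝ) δ, ∀ b ∈ ball (0 : Fin d → ℝ) δ,
      v i + L a ≠ v j + L b)
    (hsub : ∀ i, ∀ a ∈ ball (0 : Fin d → ℝ) δ, ‖v i + L a‖ ≤ R)
    (hdet : LinearMap.det L ≠ 0) :
    Fintype.card n * (|LinearMap.det L| * (2 * δ) ^ d) ≤ (2 * R) ^ d := by
  classical
  let A : n → Set (Fin d → ℝ) := fun i => (fun y => v i + y) '' (L '' ball 0 δ)
  let Le := L.equivOfDetNeZero hdet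
  have hA : ∀ i, A i = (fun y => -v i + y) ⁻¹' (L '' ball 0 δ) := fun i => image_add_left
  have hm : ∀ i, MeasurableSet (A i) := fun i => by
    rw [hA i]
    refine (measurable_const_add _) ?_
    have : IsOpen (L '' ball 0 δ) :=
      (LinearMap.toContinuousLinearMap L).isOpenMap (fun y => ⟨Le.symm y, by
        simpa [Le] using Le.apply_symm_apply y⟩) _ isOpen_ball
    exact this.measurableSet
  have hv : ∀ i, volume (A i) = ENNReal.ofReal (|LinearMap.det L| * (2 * δ) ^ d) := fun i => by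
    rw [hA i, measure_preimage_add, Measure.addHaar_image_linearMap, Real.volume_pi_ball _ hδ,
      ← ENNReal.ofReal_mul (abs_nonneg _)]
    simp
  have hd : Pairwise (Function.onFun Disjoint A) := fun i j hij => Set.disjoint_left.2 fun y hi hj => by
    obtain ⟨_, ⟨a, ha, rfl⟩, rfl⟩ := hi
    obtain ⟨_, ⟨b, hb, rfl⟩, hab⟩ := hj
    exact hdisj i j hij a ha b hb hab.symm
  have hle : volume (⋃ i, A i) ≤ volume (closedBall (0 : Fin d → ℝ) R) :=
    measure_mono (iUnion_subset fun i => by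
      rintro _ ⟨_, ⟨a, ha, rfl⟩, rfl⟩
      exact mem_closedBall_zero_iff.2 (hsub i a ha))
  rw [measure_iUnion hd hm, tsum_fintype, Finset.sum_congr rfl (fun i _ => hv i),
    Finset.sum_const, Real.volume_pi_closedBall _ hR, nsmul_eq_mul, Finset.card_univ,
    ← ENNReal.ofReal_natCast, ← ENNReal.ofReal_mul (by positivity), Fintype.card_fin,
    ENNReal.ofReal_le_ofReal_iff (by positivity)] at hle
  exact hle

/-- Packings by images of small balls are small. -/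
theorem pack_upper (h : Coord e r₀ C)
    (cocpt : ∀ r : ℝ, 0 < r →
      ∃ F : Finset G, ∀ g, ∃ γ ∈ Γ, ∃ c ∈ F, ∃ x, ‖x‖ ≤ r ∧ γ * g = c * e x) :
    ∃ C₀ : ℝ, ∀ L : (Fin d → ℝ) →ₗ[ℝ] (Fin d → ℝ), LinearMap.det L ≠ 0 → ∃ ε₀ > 0, ∀ ε,
      0 < ε → ε ≤ ε₀ → ∀ N, Pack Γ ((fun x => e (L x)) '' closedBall 0 ε) N →
        N * (|LinearMap.det L| * ε ^ d) ≤ C₀ := by
  classical
  obtain ⟨h1, h2⟩ := h.rad_le
  have hp := h.rad_pos
  have hC := h.one_le
  set r := rad r₀ C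
  obtain ⟨F, hF⟩ := cocpt r hp
  refine ⟨F.card * (36 * r) ^ d, fun L hdet => ?_⟩
  let Le := L.equivOfDetNeZero hdet
  let A := LinearMap.toContinuousLinearMap L
  let B := LinearMap.toContinuousLinearMap (Le.symm : (Fin d → ℝ) →ₗ[ℝ] (Fin d → ℝ))
  have hLB : ∀ y, L (B y) = y := fun y => by simpa [B, Le] using Le.apply_symm_apply y
  have hBL : ∀ y, B (L y) = y := fun y => by simpa [B, Le] using Le.symm_apply_apply y
  obtain ⟨M, hM⟩ := exists_nat_gt (32 * C * (‖A‖ + 1) * (‖B‖ + 1) * r + 2)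
  have hM2 : (2 : ℝ) < M := by
    have : 0 ≤ 32 * C * (‖A‖ + 1) * (‖B‖ + 1) * r := by positivity
    linarith
  have hM0 : (0 : ℝ) < M := by linarith
  set s := r / M with hs
  have hs0 : 0 < s := div_pos hp hM0
  have hMs : M * s = r := mul_div_cancel₀ r hM0.ne'
  have h2s : 2 * s ≤ r := by rw [← hMs]; nlinarith
  have hsC : 32 * C * (‖A‖ + 1) * (‖B‖ + 1) * s ≤ 1 := by
    rw [hs, mul_div_assoc', div_le_one hM0]; linarith
  refine ⟨4 * s / (‖A‖ + 1), by positivity, fun ε hε hεs N ⟨f, hf⟩ => ?_⟩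
  rw [le_div_iff₀ (by positivity)] at hεs
  choose γ hγ c hc x hx hfx using fun i => hF (f i)
  have hpk := Pack.move hf hγ
  have hk : ∀ i t, ⌊(x i t + r) / s⌋₊ < 2 * M + 1 := fun i t => by
    rw [Nat.lt_succ_iff]
    refine Nat.floor_le_of_le ?_
    rw [div_le_iff₀ hs0]
    push_cast
    have := (abs_le.1 ((norm_le_pi_norm (x i) t).trans (hx i))).2
    nlinarith [hMs]
  let key : Fin N → {a // a ∈ F} × (Fin d → Fin (2 * M + 1)) :=
    fun i => (⟨c i, hc i⟩, fun t => ⟨_, hk i t⟩)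
  have hfib : ∀ q, ((Finset.univ.filter fun i => key i = q).card : ℝ) *
      (|LinearMap.det L| * (ε / 2) ^ d) ≤ (6 * s) ^ d := by
    intro q
    let m : Fin d → ℝ := fun t => -r + s * ((q.2 t : ℕ) : ℝ)
    have hm : ‖m‖ ≤ r := (pi_norm_le_iff_of_nonneg hp.le).2 fun t => by
      have hq : ((q.2 t : ℕ) : ℝ) ≤ 2 * M := by exact_mod_cast Nat.lt_succ_iff.1 (q.2 t).2
      rw [Real.norm_eq_abs, abs_le]
      have : (0 : ℝ) ≤ ((q.2 t : ℕ) : ℝ) := Nat.cast_nonneg _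
      constructor <;> simp only [m] <;> nlinarith [hMs]
    have hv : ∀ i : {i // key i = q}, ∃ w, e m * e w = e (x i) ∧ ‖w‖ ≤ 2 * s := by
      rintro ⟨i, rfl⟩
      obtain ⟨w, hw, hwn, -⟩ := h.quot le_rfl hm (hx i)
      refine ⟨w, hw, hwn.trans (mul_le_mul_of_nonneg_left ?_ two_pos.le)⟩
      refine (pi_norm_le_iff_of_nonneg hs0.le).2 fun t => ?_
      have h0 : 0 ≤ x i t + r := by
        have := (abs_le.1 ((norm_le_pi_norm (x i) t).trans (hx i))).1; linarith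
      have l1 := Nat.floor_le (div_nonneg h0 hs0.le)
      have l2 := Nat.lt_floor_add_one ((x i t + r) / s)
      rw [le_div_iff₀ hs0] at l1
      rw [div_lt_iff₀ hs0] at l2
      rw [Pi.sub_apply, Real.norm_eq_abs, abs_le]
      constructor <;> simp only [m, key] <;> nlinarith
    choose v hve hvn using hv
    have hfi : ∀ i : {i // key i = q}, γ i * f i = q.1.1 * (e m * e (v i)) := by
      intro i
      rw [hve i, hfx i]
      rw [show q.1.1 = c i from (congrArg (fun q => (q.1 : G)) i.2).symm]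
    have hb := card_mul_det_le L v (δ := ε / 4) (R := 3 * s) (by positivity) (by positivity)
      (fun i j hij a ha b hb hab => hij (Subtype.ext ?_)) (fun i a ha => ?_) hdet
    · rw [show (2 : ℝ) * (3 * s) = 6 * s by ring, show (2 : ℝ) * (ε / 4) = ε / 2 by ring,
        Fintype.card_subtype] at hb
      exact hb
    · rw [mem_ball_zero_iff] at ha hb
      obtain ⟨w, hw, -, hwb⟩ := h.quot h2s (hvn i) (hvn j)
      have hab' : v j - v i = L (a - b) := by
        rw [map_sub, sub_eq_sub_iff_add_eq_add, add_comm (L a)]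
        exact hab.symm
      have hn : ‖v j - v i‖ ≤ ‖A‖ * (ε / 2) := by
        rw [hab']
        exact (A.le_opNorm _).trans (mul_le_mul_of_nonneg_left
          ((norm_sub_le a b).trans (by linarith)) (norm_nonneg _))
      have hBw : ‖B w‖ ≤ ε := by
        have e1 : B w = (a - b) + B (w - (v j - v i)) := by
          rw [map_sub, hab', hBL]; abel
        rw [e1]
        refine (norm_add_le _ _).trans ?_
        have l1 : ‖a - b‖ ≤ ε / 2 := (norm_sub_le a b).trans (by linarith)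
        have l2 : ‖B (w - (v j - v i))‖ ≤ ε / 2 := by
          refine (B.le_opNorm _).trans ((mul_le_mul_of_nonneg_left (hwb.trans
            (mul_le_mul_of_nonneg_left hn (by positivity))) (norm_nonneg _)).trans ?_)
          have h32 : 32 * C * ‖A‖ * ‖B‖ * s ≤ 1 := by
            refine le_trans ?_ hsC
            gcongr <;> linarith
          nlinarith [hε]
        linarith
      refine (hpk 1 Γ.one_mem i j (e w) ⟨B w, mem_closedBall_zero_iff.2 hBw,
        by simp only [hLB]⟩ (e 0) ⟨0, mem_closedBall_self hε.le, by simp⟩ ?_).2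
      rw [one_mul, hfi i, hfi j, h.zero, mul_one, ← hw]
      simp only [mul_assoc]
    · rw [mem_ball_zero_iff] at ha
      refine (norm_add_le _ _).trans ?_
      have : ‖L a‖ ≤ ‖A‖ * (ε / 4) :=
        (A.le_opNorm a).trans (mul_le_mul_of_nonneg_left ha.le (norm_nonneg _))
      nlinarith [hvn i, norm_nonneg A]
  have hsum : (N : ℝ) =
      ∑ q, ((Finset.univ.filter fun i => key i = q).card : ℝ) := by
    rw [← Nat.cast_sum, ← Finset.card_eq_sum_card_fiberwise (f := key) (fun i _ => Finset.mem_univ _),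
      Finset.card_univ, Fintype.card_fin]
  have htot : (N : ℝ) * (|LinearMap.det L| * (ε / 2) ^ d) ≤
      F.card * ((2 * M + 1 : ℕ) : ℝ) ^ d * (6 * s) ^ d := by
    rw [hsum, Finset.sum_mul]
    refine (Finset.sum_le_sum fun q _ => hfib q).trans_eq ?_
    simp [mul_assoc]
  rw [show F.card * (36 * r) ^ d = F.card * (18 * r) ^ d * 2 ^ d by
    rw [mul_assoc, ← mul_pow]; ring_nf]
  rw [show (N : ℝ) * (|LinearMap.det L| * ε ^ d) =
    N * (|LinearMap.det L| * (ε / 2) ^ d) * 2 ^ d by rw [mul_assoc, mul_assoc, ← mul_pow]; ring_nf]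
  refine mul_le_mul_of_nonneg_right (htot.trans ?_) (by positivity)
  rw [mul_assoc, ← mul_pow]
  refine mul_le_mul_of_nonneg_left (pow_le_pow_left₀ (by positivity) ?_ d) (Nat.cast_nonneg _)
  push_cast
  nlinarith [hMs]

/-- Conjugation has determinant `±1` in exponential coordinates. -/
theorem unimod {G : Type*} [Group G] {d : ℕ} (Γ : Subgroup G) (e : (Fin d → ℝ) → G) {r₀ C : ℝ}
    (hr₀ : 0 < r₀) (e_zero : e 0 = 1) (e_neg : ∀ x, e (-x) = (e x)⁻¹)
    (e_inj : InjOn e (closedBall 0 r₀))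
    (e_mul : ∀ x ∈ closedBall (0 : Fin d → ℝ) r₀, ∀ y ∈ closedBall (0 : Fin d → ℝ) r₀,
      ∃ z, e x * e y = e z ∧ ‖z - (x + y)‖ ≤ C * (‖x‖ + ‖y‖) * ‖y‖)
    (disc : ∀ γ ∈ Γ, ∀ x ∈ closedBall (0 : Fin d → ℝ) r₀, γ = e x → γ = 1)
    (cocpt : ∀ r : ℝ, 0 < r →
      ∃ F : Finset G, ∀ g, ∃ γ ∈ Γ, ∃ c ∈ F, ∃ x, ‖x‖ ≤ r ∧ γ * g = c * e x)
    (g : G) (L : (Fin d → ℝ) →ₗ[ℝ] (Fin d → ℝ)) {r₁ : ℝ} (hr₁ : 0 < r₁)
    (hL : ∀ x, ‖x‖ ≤ r₁ → g * e x * g⁻¹ = e (L x)) : |LinearMap.det L| = 1 := by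
  have h : Coord e r₀ (max C 1) := ⟨hr₀, le_max_right _ _, e_zero, e_neg, e_inj,
    fun x hx y hy => by
      obtain ⟨z, hz, hb⟩ := e_mul x hx y hy
      exact ⟨z, hz, hb.trans (by gcongr; exact le_max_left _ _)⟩⟩
  obtain ⟨c, hc, hlow⟩ := pack_lower h disc
  obtain ⟨C₀, hup⟩ := pack_upper h cocpt
  have hdet : LinearMap.det L ≠ 0 := by
    refine LinearEquiv.isUnit_det' (LinearEquiv.ofInjectiveEndo L ?_) |>.ne_zero
    refine (injective_iff_map_eq_zero L).2 fun x hx => ?_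
    by_contra hne
    have hn : 0 < ‖x‖ := norm_pos_iff.2 hne
    have ht : 0 < min r₀ r₁ := lt_min hr₀ hr₁
    set y := (min r₀ r₁ / ‖x‖) • x with hy
    have hyn : ‖y‖ = min r₀ r₁ := by
      rw [hy, norm_smul, Real.norm_eq_abs, abs_of_pos (by positivity), div_mul_cancel₀ _ hn.ne']
    have h1 : e y = 1 := by
      have := hL y (hyn.trans_le (min_le_right _ _))
      rwa [hy, map_smul, hx, smul_zero, e_zero, ← hy, conj_eq_one_iff] at this
    have h2 : y = 0 := e_inj (mem_closedBall_zero_iff.2 (hyn.trans_le (min_le_left _ _)))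
      (mem_closedBall_self hr₀.le) (h1.trans e_zero.symm)
    rw [h2, norm_zero] at hyn
    linarith
  let Le := L.equivOfDetNeZero hdet
  have main : ∀ (g' : G) (L' : (Fin d → ℝ) →ₗ[ℝ] (Fin d → ℝ)), LinearMap.det L' ≠ 0 →
      (∃ r > 0, ∀ x, ‖x‖ ≤ r → g' * e x * g'⁻¹ = e (L' x)) →
      |LinearMap.det L'| ≤ C₀ / c := by
    rintro g' L' hd' ⟨r, hr, hx⟩
    obtain ⟨ε₀, hε₀, hU⟩ := hup L' hd'
    set ε := min ε₀ (min r (rad r₀ (max C 1)))
    have hε : 0 < ε := lt_min hε₀ (lt_min hr h.rad_pos)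
    obtain ⟨N, hN, hcN⟩ := hlow ε hε ((min_le_right _ _).trans (min_le_right _ _))
    have hU' := hU ε hε (min_le_left _ _) N (hN.conj g' fun w hw => by
      obtain ⟨x, hxε, rfl⟩ := hw
      exact ⟨e x, mem_image_of_mem e hxε, (hx x ((mem_closedBall_zero_iff.1 hxε).trans
        ((min_le_right _ _).trans (min_le_left _ _)))).symm⟩)
    rw [div_le_iff₀ (by positivity)] at hcN
    rw [le_div_iff₀ hc]
    refine le_trans ?_ hU'
    nlinarith [mul_le_mul_of_nonneg_left hcN (abs_nonneg (LinearMap.det L'))]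
  have powers : ∀ (g' : G) (L' : (Fin d → ℝ) →ₗ[ℝ] (Fin d → ℝ)), LinearMap.det L' ≠ 0 →
      (∃ r > 0, ∀ x, ‖x‖ ≤ r → g' * e x * g'⁻¹ = e (L' x)) →
      |LinearMap.det L'| ≤ 1 := by
    intro g' L' hd' hx
    have hn : ∀ n : ℕ, ∃ r > 0, ∀ x, ‖x‖ ≤ r →
        g' ^ n * e x * (g' ^ n)⁻¹ = e ((L' ^ n) x) := by
      intro n
      induction n with
      | zero => exact ⟨1, one_pos, fun x _ => by simp⟩
      | succ n ih =>
        obtain ⟨r, hr, hr'⟩ := ih
        obtain ⟨r', hr'0, hx'⟩ := hx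
        let A := LinearMap.toContinuousLinearMap (L' ^ n)
        refine ⟨min r (r' / (‖A‖ + 1)), lt_min hr (by positivity), fun x hxn => ?_⟩
        have hb : ‖(L' ^ n) x‖ ≤ r' := by
          refine (A.le_opNorm x).trans ?_
          have := hxn.trans (min_le_right _ _)
          rw [le_div_iff₀ (by positivity)] at this
          nlinarith [norm_nonneg x, norm_nonneg A]
        rw [pow_succ' g', pow_succ' L', Module.End.mul_apply, ← hx' _ hb,
          ← hr' x (hxn.trans (min_le_left _ _)), mul_inv_rev]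
        simp only [mul_assoc]
    refine le_of_not_gt fun hlt => ?_
    obtain ⟨n, hn'⟩ := pow_unbounded_of_one_lt (C₀ / c) hlt
    have := main (g' ^ n) (L' ^ n) (by rw [map_pow]; exact pow_ne_zero n hd') (hn n)
    rw [map_pow, abs_pow] at this
    linarith
  have hLi : (Le.symm : (Fin d → ℝ) →ₗ[ℝ] (Fin d → ℝ)).det * LinearMap.det L = 1 := by
    rw [← LinearMap.det_comp,
      show (Le.symm : (Fin d → ℝ) →ₗ[ℝ] (Fin d → ℝ)).comp L = LinearMap.id from
        LinearMap.ext fun x => Le.symm_apply_apply x, LinearMap.det_id]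
  have hinv : ∃ r > 0, ∀ x, ‖x‖ ≤ r → g⁻¹ * e x * g⁻¹⁻¹ =
      e ((Le.symm : (Fin d → ℝ) →ₗ[ℝ] (Fin d → ℝ)) x) := by
    let B := LinearMap.toContinuousLinearMap (Le.symm : (Fin d → ℝ) →ₗ[ℝ] (Fin d → ℝ))
    refine ⟨r₁ / (‖B‖ + 1), by positivity, fun x hxn => ?_⟩
    rw [le_div_iff₀ (by positivity)] at hxn
    have hb : ‖Le.symm x‖ ≤ r₁ := by
      refine (B.le_opNorm x).trans ?_
      nlinarith [norm_nonneg x]
    have h1 := hL _ hb
    rw [show L (Le.symm x) = x from Le.apply_symm_apply x] at h1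
    rw [← h1]
    simp [mul_assoc]
  have u1 := powers g L hdet ⟨r₁, hr₁, hL⟩
  have u2 := powers g⁻¹ _ (left_ne_zero_of_mul_eq_one hLi) hinv
  have u3 := congrArg abs hLi
  rw [abs_mul, abs_one] at u3
  nlinarith [abs_nonneg (LinearMap.det L)]

end

end Vale.Agent.P274.Full.Lie
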