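import Vale.Agent.P274.Full.Lie.Chart
import Vale.Agent.P274.Full.Lie.Unimod
import Mathlib.Data.Set.Finite.Lattice

/-!
The algebra of complete fields of a taut domain with compact quotient.
-/

open Filter Metric Set Function Topology

namespace Vale.Agent.P274.Full.Lie

noncomputable section

variable {E : Type} [NormedAddCommGroup E] [NormedSpace ℂ E] (T : TDom E)

/-- The given family, as a group of permutations. -/
def family : Subgroup (Aut T.V) where
  carrier := {σ | ∃ g, EqOn (σ : Equiv.Perm E) (T.act g) T.V}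
  one_mem' := by
    obtain ⟨g, hg⟩ := T.one_mem
    exact ⟨g, fun z hz => (hg hz).symm⟩
  mul_mem' := by
    rintro σ τ ⟨g, hg⟩ ⟨h, hh⟩
    obtain ⟨k, hk⟩ := T.mul g h
    refine ⟨k, fun z hz => ?_⟩
    rw [Subgroup.coe_mul, Equiv.Perm.mul_apply, hh hz, hg (T.maps h hz), hk hz, comp_apply]
  inv_mem' := by
    rintro σ ⟨g, hg⟩
    obtain ⟨k, hk⟩ := T.inv g
    refine ⟨k, fun z hz => ?_⟩
    rw [Subgroup.coe_inv, Equiv.Perm.inv_def, Equiv.symm_apply_eq, hk hz,
      hg (T.maps_back g hz), T.act_back g z hz]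

variable [FiniteDimensional ℂ E] [NormedSpace ℝ E] [IsScalarTower ℝ ℂ E]

omit [IsScalarTower ℝ ℂ E] in
theorem exp_congr {X Y : E → E} (hX : IsComplete T.V X) (h : EqOn X Y T.V) :
    exp T X = exp T Y := by
  obtain ⟨φ, hφ⟩ := hX.2
  refine ext (exp_mem T X) (exp_mem T Y) fun z hz => ?_
  rw [exp_apply T hX.1 hφ hz,
    exp_apply T (isComplete_congr T hX h).1 (flow_congr hφ h) hz]

theorem tendsto_e {z : E} (hz : z ∈ T.V) : Tendsto (fun x => e T x z) (𝓝 0) (𝓝 z) := by
  obtain ⟨ρ, hρ, C, -, h⟩ :=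
    diff_est T (S := {z}) isCompact_singleton (singleton_subset_iff.2 hz)
  rw [tendsto_iff_norm_sub_tendsto_zero]
  refine squeeze_zero' (Eventually.of_forall fun _ => norm_nonneg _) ?_
    (by simpa using (tendsto_norm_zero (E := Fin (dim T) → ℝ)).const_mul C)
  filter_upwards [closedBall_mem_nhds 0 hρ] with x hx
  simpa [e_zero T] using (h x 0 (mem_closedBall_zero_iff.1 hx) (by simpa using hρ.le) z rfl).1

/-- The family meets a neighbourhood of the identity only in the identity. -/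
theorem discrete : ∃ ρ > 0, ∀ γ ∈ family T, ∀ x ∈ closedBall (0 : Fin (dim T) → ℝ) ρ,
    γ = (⟨e T x, e_mem T x⟩ : Aut T.V) → γ = 1 := by
  have : ProperSpace E := FiniteDimensional.proper ℂ E
  obtain ⟨p, hp⟩ := T.connected_V.nonempty
  obtain ⟨r, hr, hrV⟩ := nhds_basis_closedBall.mem_iff.1 (T.isOpen_V.mem_nhds hp)
  have hF := T.finite {p} (closedBall p r) isCompact_singleton (isCompact_closedBall p r)
    (singleton_subset_iff.2 hp) hrV
  have hev : ∀ᶠ x in 𝓝 (0 : Fin (dim T) → ℝ),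
      ∀ g ∈ {g | ∃ z ∈ ({p} : Set E), T.act g z ∈ closedBall p r},
        EqOn (e T x) (T.act g) T.V → EqOn (T.act g) id T.V := by
    refine hF.eventually_all.2 fun g _ => ?_
    by_cases hg : EqOn (T.act g) id T.V
    · exact Eventually.of_forall fun _ _ => hg
    obtain ⟨z, hz, hne⟩ : ∃ z ∈ T.V, T.act g z ≠ z := by simpa [EqOn] using hg
    filter_upwards [(tendsto_e T hz).eventually_ne hne.symm] with x hx heq
    exact absurd (heq hz) hx
  obtain ⟨ρ, hρ, hball⟩ := nhds_basis_closedBall.eventually_iff.1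
    (hev.and ((tendsto_e T hp).eventually (closedBall_mem_nhds p hr)))
  refine ⟨ρ, hρ, fun γ hγ x hx heq => ?_⟩
  obtain ⟨g, hg⟩ := hγ
  obtain ⟨h1, h2⟩ := hball hx
  subst heq
  exact Subtype.ext (ext (e_mem T x) (Aut T.V).one_mem
    (hg.trans (h1 g ⟨p, rfl, hg hp ▸ h2⟩ hg)))

/-- Finitely many translates of a coordinate ball cover the quotient by the family. -/
theorem cocompact (r : ℝ) (hr : 0 < r) : ∃ F : Finset (Aut T.V), ∀ σ, ∃ γ ∈ family T, ∃ c ∈ F,
    ∃ x, ‖x‖ ≤ r ∧ γ * σ = c * ⟨e T x, e_mem T x⟩ := by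
  have : ProperSpace E := FiniteDimensional.proper ℂ E
  obtain ⟨p, hp⟩ := T.connected_V.nonempty
  obtain ⟨s, hs, hsV⟩ := nhds_basis_closedBall.mem_iff.1 (T.isOpen_V.mem_nhds hp)
  suffices h : ∃ F : Finset (Aut T.V), ∀ τ : Aut T.V, (τ : Equiv.Perm E) p ∈ T.K →
      ∃ c ∈ F, ∃ x, ‖x‖ ≤ r ∧ τ = c * ⟨e T x, e_mem T x⟩ by
    obtain ⟨F, hF⟩ := h
    refine ⟨F, fun σ => ?_⟩
    obtain ⟨g, hg⟩ := T.cover _ (mapsTo σ.2 hp)
    have hA : IsAut T.V (T.act g) (T.back g) :=
      ⟨T.diff g, T.diff_back g, T.maps g, T.maps_back g, T.back_act g, T.act_back g⟩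
    refine ⟨⟨ofAut hA, ofAut_mem hA⟩, ⟨g, fun z hz => ofAut_apply hA hz⟩, hF _ ?_⟩
    rw [Subgroup.coe_mul, Equiv.Perm.mul_apply, ofAut_apply hA (mapsTo σ.2 hp)]
    exact hg
  by_contra! hcon
  obtain ⟨u, hu⟩ := seq_of_forall_finite_exists
    (P := fun (τ : Aut T.V) (t : Set (Aut T.V)) => (τ : Equiv.Perm E) p ∈ T.K ∧
      ∀ c ∈ t, ∀ x, ‖x‖ ≤ r → τ ≠ c * ⟨e T x, e_mem T x⟩)
    fun t ht => by
      obtain ⟨τ, hτ, h⟩ := hcon ht.toFinset
      exact ⟨τ, hτ, fun c hc => h c (ht.mem_toFinset.2 hc)⟩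
  obtain ⟨φ, hφ, τ, hτ, hlim, hlim'⟩ := exists_subseq T (isCompact_singleton (x := p))
    (singleton_subset_iff.2 hp) T.compact_K T.K_subset (fun j => (u j : Equiv.Perm E))
    (fun j => (u j).2) fun j => ⟨p, rfl, (hu j).1⟩
  obtain ⟨δ, hδ, hsurj⟩ := surj T hs hsV hr
  obtain ⟨L, hL, hLV, hL'⟩ := bounded_of_meet T (isCompact_singleton (x := p))
    (singleton_subset_iff.2 hp) T.compact_K T.K_subset (isCompact_closedBall p s) hsV
  have hτd : ContinuousOn τ.symm T.V := (diff (symm_mem hτ)).continuousOn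
  have hτB : IsCompact (τ '' closedBall p s) :=
    (isCompact_closedBall p s).image_of_continuousOn ((diff hτ).continuousOn.mono hsV)
  have hU : L ∪ τ '' closedBall p s ⊆ T.V :=
    union_subset hLV (image_subset_iff.2 fun z hz => mapsTo hτ (hsV hz))
  obtain ⟨κ, hκ, hκ'⟩ := Metric.uniformContinuousOn_iff.1
    ((hL.union hτB).uniformContinuousOn_of_continuous (hτd.mono hU)) (δ / 2) (half_pos hδ)
  have h1 := Metric.tendstoUniformlyOn_iff.1
    ((tendstoLocallyUniformlyOn_iff_tendstoUniformlyOn_of_compact (isCompact_closedBall p s)).1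
      (hlim.mono hsV)) κ hκ
  have h2 := Metric.tendstoUniformlyOn_iff.1
    ((tendstoLocallyUniformlyOn_iff_tendstoUniformlyOn_of_compact hL).1
      (hlim'.mono hLV)) (δ / 2) (half_pos hδ)
  obtain ⟨N, hN⟩ := eventually_atTop.1 (h1.and h2)
  set a := φ N
  set b := φ (N + 1)
  have hclose : ∀ z ∈ closedBall p s, ‖(((u a)⁻¹ * u b : Aut T.V) : Equiv.Perm E) z - z‖ ≤ δ := by
    intro z hz
    have hw : (u b : Equiv.Perm E) z ∈ L := hL' _ (u b).2 p rfl (hu b).1 hz
    have e1 : dist (τ z) ((u b : Equiv.Perm E) z) < κ := (hN (N + 1) (Nat.le_succ _)).1 z hz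
    have e2 := (hN N le_rfl).2 _ hw
    have e3 := hκ' _ (Or.inl hw) _ (Or.inr ⟨z, hz, rfl⟩) (by rwa [dist_comm] at e1)
    rw [τ.symm_apply_apply] at e3
    rw [Subgroup.coe_mul, Subgroup.coe_inv, Equiv.Perm.mul_apply, Equiv.Perm.inv_def,
      ← dist_eq_norm]
    linarith [dist_triangle ((u a : Equiv.Perm E).symm ((u b : Equiv.Perm E) z))
      (τ.symm ((u b : Equiv.Perm E) z)) z,
      dist_comm (τ.symm ((u b : Equiv.Perm E) z)) ((u a : Equiv.Perm E).symm ((u b : Equiv.Perm E) z))]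
  obtain ⟨x, hx, heq⟩ := hsurj _ ((u a)⁻¹ * u b : Aut T.V).2 hclose
  exact (hu b).2 (u a) ⟨a, hφ (Nat.lt_succ_self N), rfl⟩ x hx
    (by rw [← mul_inv_cancel_left (u a) (u b)]; exact congrArg (u a * ·) (Subtype.ext heq))

/-- The action of an automorphism on coordinates of fields. -/
theorem exists_adjoint {σ : Equiv.Perm E} (hσ : σ ∈ Aut T.V) :
    ∃ L : (Fin (dim T) → ℝ) →ₗ[ℝ] (Fin (dim T) → ℝ),
      (∀ c, EqOn (push σ σ.symm (field T c)) (field T (L c)) T.V) ∧
        |LinearMap.det L| = 1 := by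
  let P : (E → E) →ₗ[ℝ] (E → E) :=
    { toFun := fun X => T.V.indicator (push σ σ.symm X)
      map_add' := fun X Y => by
        funext z
        by_cases hz : z ∈ T.V <;> simp [hz, push]
      map_smul' := fun c X => by
        funext z
        by_cases hz : z ∈ T.V
        · simp only [indicator_of_mem hz, push, Pi.smul_apply, RingHom.id_apply]
          exact ((fderiv ℂ σ (σ.symm z)).restrictScalars ℝ).map_smul c _
        · simp [hz] }
  let L : (Fin (dim T) → ℝ) →ₗ[ℝ] (Fin (dim T) → ℝ) :=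
    (Module.finBasis ℝ (fields T)).equivFun.toLinearMap.comp
      ((P.comp (field T)).codRestrict (fields T) fun c =>
        indicator_mem T (isComplete_push T (field_complete T c) (isAut hσ)))
  have hL : ∀ c, EqOn (push σ σ.symm (field T c)) (field T (L c)) T.V := fun c z hz => by
    simp [L, P, field, indicator_of_mem hz]
  refine ⟨L, hL, ?_⟩
  obtain ⟨ρ₁, hρ₁, hinj⟩ := e_injOn T
  obtain ⟨ρ₂, hρ₂, C, hC, hmul⟩ := e_mul T
  obtain ⟨ρ₃, hρ₃, hdisc⟩ := discrete T
  set ρ := min ρ₁ (min ρ₂ ρ₃) with hρ_def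
  refine unimod (family T) (fun x => ⟨e T x, e_mem T x⟩) (C := C) (r₀ := ρ) (by positivity)
    (Subtype.ext (e_zero T)) (fun x => Subtype.ext (e_neg T x)) ?_ ?_ ?_ (cocompact T)
    ⟨σ, hσ⟩ L one_pos fun x _ => Subtype.ext ?_
  · exact fun x hx y hy h => hinj (closedBall_subset_closedBall (min_le_left _ _) hx)
      (closedBall_subset_closedBall (min_le_left _ _) hy) (congrArg Subtype.val h)
  · intro x hx y hy
    rw [mem_closedBall_zero_iff, hρ_def, le_min_iff, le_min_iff] at hx hy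
    obtain ⟨z, hz, hz'⟩ := hmul x y hx.2.1 hy.2.1
    exact ⟨z, Subtype.ext hz, hz'⟩
  · exact fun γ hγ x hx => hdisc γ hγ x
      (closedBall_subset_closedBall ((min_le_right _ _).trans (min_le_right _ _)) hx)
  · exact (exp_conj T (field_complete T x) hσ).trans
      (exp_congr T (isComplete_push T (field_complete T x) (isAut hσ)) (hL x))

/-- The algebra of complete fields of a taut domain with compact quotient is finite dimensional,
and automorphisms act on it unimodularly. -/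
theorem lie : LieStmt := by
  intro m k T
  refine ⟨{ d := dim T
            B := gen T
            complete := fun c => by rw [← field_apply]; exact field_complete T c
            span := fun X hX => ?_
            indep := fun c h => eq_zero_of_eqOn T (by rwa [field_apply])
            det := fun a b hab => ?_
            iso := fun p hp => isotropy_bound T hp
            uniq := fun p hp a b hab ha hd => ?_ }⟩
  · obtain ⟨c, hc⟩ := exists_coord T hX
    exact ⟨c, field_apply T c ▸ hc⟩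
  · obtain ⟨L, hL, hdet⟩ := exists_adjoint T (ofAut_mem hab)
    refine ⟨L, fun c z hz => ?_, hdet⟩
    rw [← field_apply, ← field_apply, ← hL c hz]
    simp only [push, ofAut_symm_apply hab hz,
      (Set.EqOn.eventuallyEq_of_mem (fun w hw => ofAut_apply hab hw : EqOn (⇑(ofAut hab)) a T.V)
        (T.isOpen_V.mem_nhds (hab.2.2.2.1 hz))).fderiv_eq]
  · intro z hz
    have h := eq_one_of_fderiv T (ofAut_mem hab) hp (by rw [ofAut_apply hab hp, ha]) (by
      rw [(Set.EqOn.eventuallyEq_of_mem (fun w hw => ofAut_apply hab hw : EqOn (⇑(ofAut hab)) a T.V)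
        (T.isOpen_V.mem_nhds hp)).fderiv_eq, hd])
    rw [← ofAut_apply hab hz, h]
    rfl

end

end Vale.Agent.P274.Full.Lie
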