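import Vale.Agent.P274.Full.Lie.Cartan
import Mathlib.Analysis.ODE.ExistUnique
import Mathlib.Analysis.Calculus.Deriv.Comp

/-!
One-parameter groups of automorphisms and their generators.
-/

open Filter Metric Set Function Topology

namespace Vale.Agent.P274.Full.Lie

noncomputable section

variable {E : Type} [NormedAddCommGroup E] [NormedSpace ℂ E] [NormedSpace ℝ E]
  {V : Set E} {X : E → E} {φ : ℝ → E → E}

theorem flow_left_inv (h : IsFlow V X φ) (t : ℝ) {z : E} (hz : z ∈ V) : φ (-t) (φ t z) = z := by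
  rw [← h.2.2.2.1 (-t) t z hz, neg_add_cancel, h.2.2.1 z hz]

theorem flow_isAut (h : IsFlow V X φ) (t : ℝ) : IsAut V (φ t) (φ (-t)) :=
  ⟨h.1 t, h.1 (-t), h.2.1 t, h.2.1 (-t), fun _ hz => flow_left_inv h t hz,
    fun z hz => by simpa using flow_left_inv h (-t) hz⟩

theorem flow_deriv (h : IsFlow V X φ) (t : ℝ) {z : E} (hz : z ∈ V) :
    HasDerivAt (fun s => φ s z) (X (φ t z)) t :=
  h.2.2.2.2 t z hz

theorem flow_continuous (h : IsFlow V X φ) {z : E} (hz : z ∈ V) : Continuous fun t => φ t z :=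
  continuous_iff_continuousAt.2 fun t => (flow_deriv h t hz).continuousAt

/-- A rescaled one-parameter group. -/
theorem flow_smul (h : IsFlow V X φ) (c : ℝ) : IsFlow V (c • X) fun t => φ (c * t) := by
  refine ⟨fun t => h.1 _, fun t => h.2.1 _, fun z hz => ?_, fun s t z hz => ?_, fun t z hz => ?_⟩
  · simpa using h.2.2.1 z hz
  · simpa [mul_add] using h.2.2.2.1 (c * s) (c * t) z hz
  · have h1 : HasDerivAt (fun s => c * s) c t := by simpa using (hasDerivAt_id t).const_mul c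
    have := (flow_deriv h (c * t) hz).scomp t h1
    exact this

/-- Being a flow depends only on the values of the generator on `V`. -/
theorem flow_congr (h : IsFlow V X φ) {X' : E → E} (hX : EqOn X X' V) : IsFlow V X' φ :=
  ⟨h.1, h.2.1, h.2.2.1, h.2.2.2.1, fun t z hz => hX (h.2.1 t hz) ▸ h.2.2.2.2 t z hz⟩

variable [IsScalarTower ℝ ℂ E]

/-- The push-forward of a one-parameter group by an automorphism. -/
theorem flow_push (h : IsFlow V X φ) (hV : IsOpen V) {a b : E → E} (hab : IsAut V a b) :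
    IsFlow V (push a b X) fun t z => a (φ t (b z)) := by
  obtain ⟨ha, hb, hma, hmb, hba, hab'⟩ := hab
  refine ⟨fun t => ha.comp ((h.1 t).comp hb hmb) ((h.2.1 t).comp hmb),
    fun t => hma.comp ((h.2.1 t).comp hmb), fun z hz => ?_, fun s t z hz => ?_, fun t z hz => ?_⟩
  · simp only [h.2.2.1 _ (hmb hz), hab' z hz]
  · simp only [hba _ (h.2.1 t (hmb hz)), h.2.2.2.1 s t _ (hmb hz)]
  · have hin := h.2.1 t (hmb hz)
    simp only [push, hba _ hin]
    exact ((ha.differentiableAt (hV.mem_nhds hin)).hasFDerivAt.restrictScalars ℝ).comp_hasDerivAt t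
      (flow_deriv h t (hmb hz))

variable [FiniteDimensional ℂ E] (T : TDom E)

omit [IsScalarTower ℝ ℂ E] in
/-- A one-parameter group keeps a compact set inside a compact set for bounded times. -/
theorem flow_bounded (h : IsFlow T.V X φ) {S : Set E} (hS : IsCompact S) (hSV : S ⊆ T.V) (τ : ℝ) :
    ∃ L, IsCompact L ∧ L ⊆ T.V ∧ ∀ t ∈ Icc (-τ) τ, MapsTo (φ t) S L := by
  obtain ⟨p, hp⟩ := T.connected_V.nonempty
  have hA : IsCompact ((fun t => φ t p) '' Icc (-τ) τ) :=
    isCompact_Icc.image (flow_continuous h hp)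
  obtain ⟨L, hL, hLV, hL'⟩ := bounded_of_meet T isCompact_singleton (singleton_subset_iff.2 hp) hA
    (by rintro _ ⟨t, -, rfl⟩; exact h.2.1 t hp) hS hSV
  refine ⟨L, hL, hLV, fun t ht z hz => ?_⟩
  have := hL' (ofAut (flow_isAut h t)) (ofAut_mem _) p rfl
    ⟨t, ht, (ofAut_apply (flow_isAut h t) hp).symm⟩ hz
  rwa [ofAut_apply _ (hSV hz)] at this

omit [IsScalarTower ℝ ℂ E] in
/-- Integral curves of a holomorphic field in `V` are unique. -/
theorem curve_unique (hX : DifferentiableOn ℂ X T.V) {γ δ : ℝ → E}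
    (hγ : ∀ t, HasDerivAt γ (X (γ t)) t) (hδ : ∀ t, HasDerivAt δ (X (δ t)) t)
    (hγV : ∀ t, γ t ∈ T.V) (hδV : ∀ t, δ t ∈ T.V) (h0 : γ 0 = δ 0) (t : ℝ) : γ t = δ t := by
  set τ := |t| + 1 with hτ
  have hA : IsCompact (γ '' Icc (-τ) τ ∪ δ '' Icc (-τ) τ) :=
    (isCompact_Icc.image (continuous_iff_continuousAt.2 fun s => (hγ s).continuousAt)).union
      (isCompact_Icc.image (continuous_iff_continuousAt.2 fun s => (hδ s).continuousAt))
  have hAV : γ '' Icc (-τ) τ ∪ δ '' Icc (-τ) τ ⊆ T.V := by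
    rintro _ (⟨s, -, rfl⟩ | ⟨s, -, rfl⟩)
    exacts [hγV s, hδV s]
  obtain ⟨S', C, hS', hS'V, -, hC, hb⟩ := exists_lipschitz (Y := E) T.isOpen_V hA hAV
  obtain ⟨M, hM⟩ := hS'.exists_bound_of_continuousOn (hX.continuousOn.mono hS'V)
  have hlip := (hb X |M| hX fun w hw => (hM w hw).trans (le_abs_self _)).2
  have hK : LipschitzOnWith ⟨C * |M|, by positivity⟩ X (γ '' Icc (-τ) τ ∪ δ '' Icc (-τ) τ) :=
    lipschitzOnWith_iff_norm_sub_le.2 fun x hx y hy => hlip x hx y hy
  exact ODE_solution_unique_of_mem_Ioo (v := fun _ => X)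
    (s := fun _ => γ '' Icc (-τ) τ ∪ δ '' Icc (-τ) τ) (fun _ _ => hK)
    (show (0 : ℝ) ∈ Ioo (-τ) τ by constructor <;> linarith [abs_nonneg t])
    (fun s hs => ⟨hγ s, Or.inl ⟨s, Ioo_subset_Icc_self hs, rfl⟩⟩)
    (fun s hs => ⟨hδ s, Or.inr ⟨s, Ioo_subset_Icc_self hs, rfl⟩⟩) h0
    (show t ∈ Ioo (-τ) τ by constructor <;> linarith [le_abs_self t, neg_abs_le t])

omit [IsScalarTower ℝ ℂ E] in
/-- A generator determines its one-parameter group. -/
theorem flow_unique (hX : DifferentiableOn ℂ X T.V) (h : IsFlow T.V X φ) {ψ : ℝ → E → E}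
    (h' : IsFlow T.V X ψ) (t : ℝ) : EqOn (φ t) (ψ t) T.V := fun z hz =>
  curve_unique T hX (fun s => flow_deriv h s hz) (fun s => flow_deriv h' s hz)
    (fun s => h.2.1 s hz) (fun s => h'.2.1 s hz) (by rw [h.2.2.1 z hz, h'.2.2.1 z hz]) t

omit [IsScalarTower ℝ ℂ E] in
/-- Zeros of the generator are fixed. -/
theorem flow_fix (hX : DifferentiableOn ℂ X T.V) (h : IsFlow T.V X φ) {p : E} (hp : p ∈ T.V)
    (h0 : X p = 0) (t : ℝ) : φ t p = p :=
  curve_unique T hX (fun s => flow_deriv h s hp) (δ := fun _ => p)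
    (fun s => by simpa [h0] using hasDerivAt_const s p) (fun s => h.2.1 s hp) (fun _ => hp)
    (h.2.2.1 p hp) t

omit [IsScalarTower ℝ ℂ E] in
/-- The first order expansion of a one-parameter group is uniform on compact sets. -/
theorem flow_expand (hX : ContinuousOn X T.V) (h : IsFlow T.V X φ) {S : Set E} (hS : IsCompact S)
    (hSV : S ⊆ T.V) {η : ℝ} (hη : 0 < η) :
    ∃ δ > 0, ∀ t : ℝ, |t| ≤ δ → ∀ z ∈ S,
      ‖φ t z - z - t • X z‖ ≤ η * |t| ∧ ‖φ t z - z‖ ≤ η := by
  obtain ⟨L, hL, hLV, hL'⟩ := flow_bounded T h hS hSV 1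
  obtain ⟨M, hM⟩ := hL.exists_bound_of_continuousOn (hX.mono hLV)
  obtain ⟨κ, hκ, hκ'⟩ := Metric.uniformContinuousOn_iff.1
    ((hL.union hS).uniformContinuousOn_of_continuous (hX.mono (union_subset hLV hSV))) η hη
  refine ⟨min 1 (min κ η / (|M| + 1)), by positivity, fun t ht z hz => ?_⟩
  have hs : ∀ s ∈ uIcc 0 t, |s| ≤ |t| := fun s hs => by
    have := abs_sub_left_of_mem_uIcc hs
    simpa using this
  have hmove : ∀ s ∈ uIcc 0 t, ‖φ s z - z‖ ≤ |M| * |s| := by
    intro s hs'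
    have h1 : ∀ u ∈ uIcc 0 s, ‖X (φ u z)‖ ≤ |M| := fun u hu => by
      have h2 : |u| ≤ |s| := by simpa using abs_sub_left_of_mem_uIcc hu
      exact (hM _ (hL' u (abs_le.1 ((h2.trans (hs s hs')).trans (ht.trans (min_le_left _ _)))) hz)
        ).trans (le_abs_self _)
    have := (convex_uIcc (0 : ℝ) s).norm_image_sub_le_of_norm_hasDerivWithin_le
      (fun u _ => (flow_deriv h u (hSV hz)).hasDerivWithinAt) h1 left_mem_uIcc right_mem_uIcc
    simpa [h.2.2.1 z (hSV hz)] using this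
  have hsmall : ∀ s ∈ uIcc 0 t, |M| * |s| < κ ∧ |M| * |s| ≤ η := fun s hs' => by
    have h1 : |s| * (|M| + 1) ≤ min κ η := by
      rw [← le_div_iff₀ (by positivity)]
      exact (hs s hs').trans (ht.trans (min_le_right _ _))
    constructor
    · rcases (abs_nonneg s).lt_or_eq with hs0 | hs0
      · nlinarith [min_le_left κ η]
      · rw [← hs0, mul_zero]; exact hκ
    · nlinarith [min_le_right κ η, abs_nonneg s]
  have hdiff : ∀ s ∈ uIcc 0 t, ‖X (φ s z) - X z‖ ≤ η := fun s hs' => by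
    rw [← dist_eq_norm]
    refine (hκ' _ (Or.inl (hL' s (abs_le.1 ((hs s hs').trans (ht.trans (min_le_left _ _)))) hz))
      _ (Or.inr hz) ?_).le
    rw [dist_eq_norm]
    exact (hmove s hs').trans_lt (hsmall s hs').1
  refine ⟨?_, (hmove t right_mem_uIcc).trans (hsmall t right_mem_uIcc).2⟩
  have hderiv : ∀ s ∈ uIcc 0 t,
      HasDerivWithinAt (fun s => φ s z - s • X z) (X (φ s z) - X z) (uIcc 0 t) s := fun s _ => by
    have := (flow_deriv h s (hSV hz)).sub ((hasDerivAt_id s).smul_const (X z))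
    simp only [one_smul] at this
    exact this.hasDerivWithinAt
  have := (convex_uIcc (0 : ℝ) t).norm_image_sub_le_of_norm_hasDerivWithin_le hderiv hdiff
    left_mem_uIcc right_mem_uIcc
  simpa [h.2.2.1 z (hSV hz), sub_right_comm] using this

omit [IsScalarTower ℝ ℂ E] in
/-- The difference quotients of a one-parameter group converge to the generator. -/
theorem flow_quot (hX : ContinuousOn X T.V) (h : IsFlow T.V X φ) (s : ℕ → ℝ) (hs : ∀ j, s j ≠ 0)
    (hs0 : Tendsto s atTop (𝓝 0)) :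
    TendstoLocallyUniformlyOn (fun j z => (s j)⁻¹ • (φ (s j) z - z)) X atTop T.V := by
  have : ProperSpace E := FiniteDimensional.proper ℂ E
  rw [tendstoLocallyUniformlyOn_iff_forall_isCompact T.isOpen_V]
  intro S hSV hS
  rw [Metric.tendstoUniformlyOn_iff]
  intro ε hε
  obtain ⟨δ, hδ, hδ'⟩ := flow_expand T hX h hS hSV (half_pos hε)
  filter_upwards [Metric.tendsto_nhds.1 hs0 δ hδ] with j hj z hz
  rw [dist_zero_right, Real.norm_eq_abs] at hj
  rw [dist_comm, dist_eq_norm]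
  have h1 := (hδ' (s j) hj.le z hz).1
  have h2 : (s j)⁻¹ • (φ (s j) z - z) - X z = (s j)⁻¹ • (φ (s j) z - z - s j • X z) := by
    rw [smul_sub _ (φ (s j) z - z), inv_smul_smul₀ (hs j)]
  rw [h2, norm_smul, norm_inv, Real.norm_eq_abs]
  calc |s j|⁻¹ * ‖φ (s j) z - z - s j • X z‖ ≤ |s j|⁻¹ * (ε / 2 * |s j|) := by gcongr
    _ = ε / 2 := by
      have := abs_ne_zero.2 (hs j)
      field_simp
    _ < ε := half_lt_self hε

/-- A continuous generator is holomorphic. -/
theorem flow_diff (hX : ContinuousOn X T.V) (h : IsFlow T.V X φ) : DifferentiableOn ℂ X T.V := by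
  refine P274.differentiableOn_of_tendsto T.isOpen_V (flow_quot T hX h (fun j => 1 / ((j : ℝ) + 1))
    (fun j => by positivity) tendsto_one_div_add_atTop_nhds_zero_nat) fun z hz => ?_
  obtain ⟨r, hr, hrV⟩ := Metric.isOpen_iff.1 T.isOpen_V z hz
  exact ⟨r, hr, Eventually.of_forall fun j =>
    ((((h.1 _).sub differentiableOn_id)).const_smul _).mono hrV⟩

omit [IsScalarTower ℝ ℂ E] [FiniteDimensional ℂ E] in
/-- A one-parameter group whose generator is small on a ball stays in the ball for unit time. -/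
theorem flow_confined (h : IsFlow T.V X φ) {p : E} {r M : ℝ} (hr : 0 < r)
    (hrV : closedBall p r ⊆ T.V) (hM : ∀ z ∈ closedBall p r, ‖X z‖ ≤ M) (hMr : M < r) {t : ℝ}
    (ht : t ∈ Icc (-1 : ℝ) 1) : φ t p ∈ closedBall p r := by
  have hp : p ∈ T.V := hrV (mem_closedBall_self hr.le)
  have key : ∀ (Y : E → E) (ψ : ℝ → E → E), IsFlow T.V Y ψ → (∀ z ∈ closedBall p r, ‖Y z‖ ≤ M) →
      ∀ s ∈ Icc (0 : ℝ) 1, ψ s p ∈ closedBall p r := by
    intro Y ψ hψ hY s hs
    rw [mem_closedBall_iff_norm]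
    refine le_trans ?_ (mul_le_of_le_one_right hr.le hs.2)
    exact image_norm_le_of_norm_deriv_right_lt_deriv_boundary
      (f := fun u => ψ u p - p) (B := fun u => r * u) (B' := fun _ => r)
      ((flow_continuous hψ hp).sub continuous_const).continuousOn
      (fun u _ => ((flow_deriv hψ u hp).sub_const p).hasDerivWithinAt)
      (by simp [hψ.2.2.1 p hp]) (fun u => by simpa using (hasDerivAt_id u).const_mul r)
      (fun u hu heq => (hY _ (mem_closedBall_iff_norm.2 (heq.trans_le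
        (mul_le_of_le_one_right hr.le hu.2.le)))).trans_lt hMr) hs
  rcases le_total 0 t with h0 | h0
  · exact key X φ h hM t ⟨h0, ht.2⟩
  · have := key _ _ (flow_smul h (-1)) (fun z hz => by simpa using hM z hz) (-t)
      ⟨by linarith, by linarith [ht.1]⟩
    simpa using this

end

end Vale.Agent.P274.Full.Lie
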